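import Mathlib

/-!
# P098: the domain of the eigenvalues for `k = 4`
-/

namespace Vale.Agent.P098

/-- three numbers with sum zero -/
theorem cube_sq_le {p q r : ℝ} (h : p + q + r = 0) :
    6 * (p ^ 3 + q ^ 3 + r ^ 3) ^ 2 ≤ (p ^ 2 + q ^ 2 + r ^ 2) ^ 3 := by
  have hr : r = -p - q := by linarith
  subst hr
  have h1 : (p ^ 2 + q ^ 2 + (-p - q) ^ 2) ^ 3 - 6 * (p ^ 3 + q ^ 3 + (-p - q) ^ 3) ^ 2 =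
      2 * ((p - q) * (2 * q + p) * (2 * p + q)) ^ 2 := by ring
  nlinarith [sq_nonneg ((p - q) * (2 * q + p) * (2 * p + q)), h1]

/-- four numbers -/
theorem four_dom {x y z w : ℝ} (h1 : x + y + z + w = 0)
    (h2 : x ^ 2 + y ^ 2 + z ^ 2 + w ^ 2 = 1) :
    x ^ 2 ≤ 3 / 4 ∧
    6 * ((x ^ 3 + y ^ 3 + z ^ 3 + w ^ 3) - 20 / 9 * x ^ 3 + x) ^ 2 ≤ (1 - 4 / 3 * x ^ 2) ^ 3 ∧
    x ^ 4 + y ^ 4 + z ^ 4 + w ^ 4 = 1 / 2 - 2 * x ^ 2 + 4 * x ^ 4 -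
      4 / 3 * (x ^ 3 + y ^ 3 + z ^ 3 + w ^ 3) * x := by
  have hw : w = -x - y - z := by linarith
  subst hw
  have e1 : (y + x / 3) ^ 2 + (z + x / 3) ^ 2 + (-x - y - z + x / 3) ^ 2 = 1 - 4 / 3 * x ^ 2 := by
    rw [← h2]; ring
  have e2 : (y + x / 3) ^ 3 + (z + x / 3) ^ 3 + (-x - y - z + x / 3) ^ 3 =
      (x ^ 3 + y ^ 3 + z ^ 3 + (-x - y - z) ^ 3) - 20 / 9 * x ^ 3 + x *
        (x ^ 2 + y ^ 2 + z ^ 2 + (-x - y - z) ^ 2) := by ring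
  refine ⟨?_, ?_, ?_⟩
  · nlinarith [sq_nonneg (y + x / 3), sq_nonneg (z + x / 3), sq_nonneg (-x - y - z + x / 3), e1]
  · have h := cube_sq_le (p := y + x / 3) (q := z + x / 3) (r := -x - y - z + x / 3) (by ring)
    rw [e1, e2, h2, mul_one] at h
    exact h
  · have e3 : x ^ 4 + y ^ 4 + z ^ 4 + (-x - y - z) ^ 4 - (1 / 2 *
        (x ^ 2 + y ^ 2 + z ^ 2 + (-x - y - z) ^ 2) ^ 2 - 2 * x ^ 2 *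
        (x ^ 2 + y ^ 2 + z ^ 2 + (-x - y - z) ^ 2) + 4 * x ^ 4 -
      4 / 3 * (x ^ 3 + y ^ 3 + z ^ 3 + (-x - y - z) ^ 3) * x) = 0 := by ring
    rw [h2] at e3
    linarith

/-- **the domain for `k = 4`** -/
theorem dom4 {l : Fin 4 → ℝ} (h1 : ∑ i, l i = 0) (h2 : ∑ i, l i ^ 2 = 1) (i : Fin 4) :
    l i ^ 2 ≤ 3 / 4 ∧
    6 * ((∑ j, l j ^ 3) - 20 / 9 * l i ^ 3 + l i) ^ 2 ≤ (1 - 4 / 3 * l i ^ 2) ^ 3 ∧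
    ∑ j, l j ^ 4 = 1 / 2 - 2 * l i ^ 2 + 4 * l i ^ 4 - 4 / 3 * (∑ j, l j ^ 3) * l i := by
  simp only [Fin.sum_univ_four] at h1 h2 ⊢
  fin_cases i
  · exact four_dom h1 h2
  · obtain ⟨a, b, c⟩ := four_dom (x := l 1) (y := l 0) (z := l 2) (w := l 3) (by linarith)
      (by linarith)
    show l 1 ^ 2 ≤ 3 / 4 ∧ 6 * ((l 0 ^ 3 + l 1 ^ 3 + l 2 ^ 3 + l 3 ^ 3) - 20 / 9 * l 1 ^ 3 +
      l 1) ^ 2 ≤ (1 - 4 / 3 * l 1 ^ 2) ^ 3 ∧ l 0 ^ 4 + l 1 ^ 4 + l 2 ^ 4 + l 3 ^ 4 =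
      1 / 2 - 2 * l 1 ^ 2 + 4 * l 1 ^ 4 - 4 / 3 * (l 0 ^ 3 + l 1 ^ 3 + l 2 ^ 3 + l 3 ^ 3) * l 1
    rw [show l 0 ^ 3 + l 1 ^ 3 + l 2 ^ 3 + l 3 ^ 3 = l 1 ^ 3 + l 0 ^ 3 + l 2 ^ 3 + l 3 ^ 3 by ring,
      show l 0 ^ 4 + l 1 ^ 4 + l 2 ^ 4 + l 3 ^ 4 = l 1 ^ 4 + l 0 ^ 4 + l 2 ^ 4 + l 3 ^ 4 by ring]
    exact ⟨a, b, c⟩
  · obtain ⟨a, b, c⟩ := four_dom (x := l 2) (y := l 0) (z := l 1) (w := l 3) (by linarith)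
      (by linarith)
    show l 2 ^ 2 ≤ 3 / 4 ∧ 6 * ((l 0 ^ 3 + l 1 ^ 3 + l 2 ^ 3 + l 3 ^ 3) - 20 / 9 * l 2 ^ 3 +
      l 2) ^ 2 ≤ (1 - 4 / 3 * l 2 ^ 2) ^ 3 ∧ l 0 ^ 4 + l 1 ^ 4 + l 2 ^ 4 + l 3 ^ 4 =
      1 / 2 - 2 * l 2 ^ 2 + 4 * l 2 ^ 4 - 4 / 3 * (l 0 ^ 3 + l 1 ^ 3 + l 2 ^ 3 + l 3 ^ 3) * l 2
    rw [show l 0 ^ 3 + l 1 ^ 3 + l 2 ^ 3 + l 3 ^ 3 = l 2 ^ 3 + l 0 ^ 3 + l 1 ^ 3 + l 3 ^ 3 by ring,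
      show l 0 ^ 4 + l 1 ^ 4 + l 2 ^ 4 + l 3 ^ 4 = l 2 ^ 4 + l 0 ^ 4 + l 1 ^ 4 + l 3 ^ 4 by ring]
    exact ⟨a, b, c⟩
  · obtain ⟨a, b, c⟩ := four_dom (x := l 3) (y := l 0) (z := l 1) (w := l 2) (by linarith)
      (by linarith)
    show l 3 ^ 2 ≤ 3 / 4 ∧ 6 * ((l 0 ^ 3 + l 1 ^ 3 + l 2 ^ 3 + l 3 ^ 3) - 20 / 9 * l 3 ^ 3 +
      l 3) ^ 2 ≤ (1 - 4 / 3 * l 3 ^ 2) ^ 3 ∧ l 0 ^ 4 + l 1 ^ 4 + l 2 ^ 4 + l 3 ^ 4 =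
      1 / 2 - 2 * l 3 ^ 2 + 4 * l 3 ^ 4 - 4 / 3 * (l 0 ^ 3 + l 1 ^ 3 + l 2 ^ 3 + l 3 ^ 3) * l 3
    rw [show l 0 ^ 3 + l 1 ^ 3 + l 2 ^ 3 + l 3 ^ 3 = l 3 ^ 3 + l 0 ^ 3 + l 1 ^ 3 + l 2 ^ 3 by ring,
      show l 0 ^ 4 + l 1 ^ 4 + l 2 ^ 4 + l 3 ^ 4 = l 3 ^ 4 + l 0 ^ 4 + l 1 ^ 4 + l 2 ^ 4 by ring]
    exact ⟨a, b, c⟩

/-- the sum of the cubes -/
theorem cube4_le {l : Fin 4 → ℝ} (h1 : ∑ i, l i = 0) (h2 : ∑ i, l i ^ 2 = 1) :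
    ∑ j, l j ^ 3 ≤ 1 / Real.sqrt 3 := by
  set r := Real.sqrt 3 with hr
  have hr3 : r ^ 2 = 3 := Real.sq_sqrt (by norm_num)
  have hr0 : 0 < r := Real.sqrt_pos.2 (by norm_num)
  have hx : ∀ i, l i ≤ r / 2 := by
    intro i
    have h := (dom4 h1 h2 i).1
    by_contra hne
    push Not at hne
    nlinarith [mul_pos hr0 hr0]
  have hk : ∀ i, (l i - r / 2) * (l i + r / 6) ^ 2 ≤ 0 := fun i =>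
    mul_nonpos_of_nonpos_of_nonneg (by linarith [hx i]) (sq_nonneg _)
  have h := add_le_add (add_le_add (hk 0) (hk 1)) (add_le_add (hk 2) (hk 3))
  have h13 : 1 / r = r / 3 := by
    field_simp
    linarith
  rw [h13]
  simp only [Fin.sum_univ_four] at h1 h2 ⊢
  have e : ∀ y : ℝ, (y - r / 2) * (y + r / 6) ^ 2 = y ^ 3 - r / 6 * y ^ 2 - 5 / 36 * r ^ 2 * y -
      r ^ 2 * r / 72 := fun y => by ring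
  rw [e, e, e, e, hr3] at h
  nlinarith [h]

theorem cube4_sq {l : Fin 4 → ℝ} (h1 : ∑ i, l i = 0) (h2 : ∑ i, l i ^ 2 = 1) :
    3 * (∑ j, l j ^ 3) ^ 2 ≤ 1 := by
  have ha := cube4_le h1 h2
  have hb := cube4_le (l := fun i => -l i) (by simp [h1]) (by simp [h2])
  have e : ∑ j, (-l j) ^ 3 = -∑ j, l j ^ 3 := by
    rw [← Finset.sum_neg_distrib]
    exact Finset.sum_congr rfl fun j _ => by ring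
  rw [e] at hb
  have h3 : (1 / Real.sqrt 3) ^ 2 = 1 / 3 := by
    rw [div_pow, Real.sq_sqrt (by norm_num : (0 : ℝ) ≤ 3)]
    norm_num
  have h0 : 0 < 1 / Real.sqrt 3 := by positivity
  have : (∑ j, l j ^ 3) ^ 2 ≤ (1 / Real.sqrt 3) ^ 2 := by
    apply sq_le_sq'
    · linarith
    · exact ha
  rw [h3] at this
  linarith

end Vale.Agent.P098
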