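import Vale.Agent.Lib.P098.Cert.K5
import Vale.Agent.Lib.P098.Cert.Dom4

/-!
# P098: boundary inequality and positivity for the certificate `K5`
-/

namespace Vale.Agent.P098

theorem K5_pos : ∃ e0 : ℝ, 0 < e0 ∧ ∀ l : Fin 4 → ℝ, ∑ i, l i = 0 → ∑ i, l i ^ 2 = 1 →
    ∀ s z : ℝ, 0 ≤ s → 0 ≤ z → s + 3 / 5 * z ^ 2 ≤ 1 →
    e0 ≤ K5.e.f s z (∑ j, l j ^ 3) ∧ 0 ≤ K5.G.f s z (∑ j, l j ^ 3) := by
  refine ⟨1, one_pos, ?_⟩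
  intro l _ _ s z hs hz hd
  refine ⟨le_rfl, ?_⟩
  show 0 ≤ (cub d5Gp (1 - s) z + _ * qua d5Gq (1 - s) z) / 500
  rw [cub_G, qua_G, mul_zero, add_zero]
  have ht0 : 0 ≤ 1 - s := by nlinarith [sq_nonneg z]
  have ht1 : 1 - s ≤ 1 := by linarith
  generalize 1 - s = t at ht0 ht1
  have h1 : 0 ≤ 145 * z + 102 * z ^ 2 + 2207 * z ^ 3 + 17 * (t * z) + 712 * (t * z ^ 2) +
      82 * (t ^ 2 * z) := by positivity
  have h2 : 0 ≤ 296 + 144 * t - 461 * t ^ 2 + 331 * t ^ 3 := by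
    nlinarith [mul_nonneg ht0 (sq_nonneg (t - 7 / 10)), ht1, ht0, sq_nonneg t]
  have : 0 ≤ 296 + 145 * z + 102 * z ^ 2 + 2207 * z ^ 3 + 144 * t + 17 * (t * z) +
      712 * (t * z ^ 2) - 461 * t ^ 2 + 82 * (t ^ 2 * z) + 331 * t ^ 3 := by linarith
  positivity

theorem K5_bdry (l : Fin 4 → ℝ) (h1 : ∑ i, l i = 0) (h2 : ∑ i, l i ^ 2 = 1) (i : Fin 4)
    (_ : l i ≤ 0) :
    l i * K5.e.f 1 0 (∑ j, l j ^ 3) ≤ K5.G.f 1 0 (∑ j, l j ^ 3) * (2 * l i - ∑ j, l j ^ 3) +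
      K5.F0.f 1 0 (∑ j, l j ^ 3) + K5.F1.f 1 0 (∑ j, l j ^ 3) * l i +
      K5.F2.f 1 0 (∑ j, l j ^ 3) * l i ^ 2 + K5.F3.f 1 0 (∑ j, l j ^ 3) * l i ^ 3 := by
  have hc := cube4_sq h1 h2
  generalize (∑ j, l j ^ 3) = c at hc
  generalize l i = x
  show x * 1 ≤ (cub d5Gp (1 - 1) 0 + c * qua d5Gq (1 - 1) 0) / 500 * (2 * x - c) +
    (cub d5F0p (1 - 1) 0 + c * qua d5F0q (1 - 1) 0) / 500 +
    (cub d5F1p (1 - 1) 0 + c * qua d5F1q (1 - 1) 0) / 500 * x +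
    (cub d5F2p (1 - 1) 0 + c * qua d5F2q (1 - 1) 0) / 500 * x ^ 2 + 0 * x ^ 3
  rw [cub_G, qua_G, cub_F0, qua_F0, cub_F1, qua_F1, cub_F2, qua_F2]
  have hc1 : c ≤ 0.5774 := by nlinarith
  have hc2 : -0.5774 ≤ c := by nlinarith
  have hp : 0 ≤ 60 + 193 * x + 169 * x ^ 2 + 0.5774 * (-17 - 17 * x + 32 * x ^ 2) := by
    nlinarith [sq_nonneg (x + 0.4886)]
  have hm : 0 ≤ 60 + 193 * x + 169 * x ^ 2 - 0.5774 * (-17 - 17 * x + 32 * x ^ 2) := by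
    nlinarith [sq_nonneg (x + 0.6737)]
  have key : 0 ≤ 60 + 193 * x + 169 * x ^ 2 + c * (-17 - 17 * x + 32 * x ^ 2) := by
    have h3 := mul_nonneg (by linarith : 0 ≤ 0.5774 + c) hp
    have h4 := mul_nonneg (by linarith : 0 ≤ 0.5774 - c) hm
    nlinarith [h3, h4]
  norm_num
  nlinarith [key]

end Vale.Agent.P098
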