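import Vale.Agent.Lib.P098.Cert.K5
import Vale.Agent.Lib.P098.Cert.Dom4
import Vale.Agent.Lib.P219.Ce.Poly

/-!
# P098: the curvature inequality for the certificate `K5`
-/

open Vale.Agent.Lib.P219.Bern

namespace Vale.Agent.P098

noncomputable section

/-- polynomials in `y`, `σ`, `w` -/
abbrev P3 := List (List (List ℤ))

def vX1 : P3 := [[], [[1]]]
def vX2 : P3 := [[[], [1]]]
def vX3 : P3 := [[[0, 1]]]

theorem ev_vX1 (x1 x2 x3 : ℝ) : ev3 x1 x2 x3 vX1 = x1 := by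
  simp [ev3, ev2, ev1, pev, vX1]

theorem ev_vX2 (x1 x2 x3 : ℝ) : ev3 x1 x2 x3 vX2 = x2 := by
  simp [ev3, ev2, ev1, pev, vX2]

theorem ev_vX3 (x1 x2 x3 : ℝ) : ev3 x1 x2 x3 vX3 = x3 := by
  simp [ev3, ev2, ev1, pev, vX3]

/-- integer multiple -/
def im (n : ℤ) (a : P3) : P3 := R3.mul (R3.ofI n) a

theorem ev_im (x1 x2 x3 : ℝ) (n : ℤ) (a : P3) :
    ev3 x1 x2 x3 (im n a) = n * ev3 x1 x2 x3 a := by
  have h := isEv3 x1 x2 x3
  unfold im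
  rw [h.mul, h.ofI]

/-- `10^9` times the cubic with coefficients `p` at `(T/1000, Z/10)` -/
def cubR (p0 p1 p2 p3 p4 p5 p6 p7 p8 p9 : ℤ) (T Z : P3) : P3 :=
  R3.add (R3.ofI (p0 * 1000000000)) (R3.add (im (p1 * 100000000) Z)
  (R3.add (im (p2 * 10000000) (R3.mul Z Z)) (R3.add (im (p3 * 1000000) (R3.mul Z (R3.mul Z Z)))
  (R3.add (im (p4 * 1000000) T) (R3.add (im (p5 * 100000) (R3.mul T Z))
  (R3.add (im (p6 * 10000) (R3.mul T (R3.mul Z Z))) (R3.add (im (p7 * 1000) (R3.mul T T))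
  (R3.add (im (p8 * 100) (R3.mul (R3.mul T T) Z)) (im p9 (R3.mul T (R3.mul T T)))))))))))

theorem ev_cubR (x1 x2 x3 : ℝ) (p0 p1 p2 p3 p4 p5 p6 p7 p8 p9 : ℤ) (T Z : P3) (t z : ℝ)
    (hT : ev3 x1 x2 x3 T = 1000 * t) (hZ : ev3 x1 x2 x3 Z = 10 * z) :
    ev3 x1 x2 x3 (cubR p0 p1 p2 p3 p4 p5 p6 p7 p8 p9 T Z) = 1000000000 *
      (p0 + p1 * z + p2 * z ^ 2 + p3 * z ^ 3 + p4 * t + p5 * (t * z) + p6 * (t * z ^ 2) +
    p7 * t ^ 2 + p8 * (t ^ 2 * z) + p9 * t ^ 3) := by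
  have h := isEv3 x1 x2 x3
  unfold cubR
  simp only [h.add, h.mul, h.ofI, ev_im, hT, hZ]
  push_cast
  ring

/-- `10^9` times the quadratic polynomial with coefficients `q` at `(T/1000, Z/10)` -/
def quaR (q0 q1 q2 q3 q4 q5 : ℤ) (T Z : P3) : P3 :=
  R3.add (R3.ofI (q0 * 1000000000)) (R3.add (im (q1 * 100000000) Z)
  (R3.add (im (q2 * 10000000) (R3.mul Z Z))
  (R3.add (im (q3 * 1000000) T) (R3.add (im (q4 * 100000) (R3.mul T Z))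
  (im (q5 * 1000) (R3.mul T T))))))

theorem ev_quaR (x1 x2 x3 : ℝ) (q0 q1 q2 q3 q4 q5 : ℤ) (T Z : P3) (t z : ℝ)
    (hT : ev3 x1 x2 x3 T = 1000 * t) (hZ : ev3 x1 x2 x3 Z = 10 * z) :
    ev3 x1 x2 x3 (quaR q0 q1 q2 q3 q4 q5 T Z) = 1000000000 *
      (q0 + q1 * z + q2 * z ^ 2 + q3 * t + q4 * (t * z) + q5 * t ^ 2) := by
  have h := isEv3 x1 x2 x3
  unfold quaR
  simp only [h.add, h.mul, h.ofI, ev_im, hT, hZ]
  push_cast
  ring

/-- `10 z` -/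
def vZ : P3 := im 13 vX1
/-- `1000 s` -/
def vS : P3 := R3.mul (R3.add (R3.ofI 1000) (im (-1014) (R3.mul vX1 vX1))) vX2
/-- `1000 t` -/
def vT : P3 := R3.add (R3.ofI 1000) (im (-1) vS)
/-- `50 c` -/
def vC : P3 := R3.add (R3.ofI (-29)) (im 58 vX3)

def vcG : P3 := cubR 296 145 102 2207 144 17 712 (-461) 82 331 vT vZ
def vc0 : P3 := cubR 60 1371 (-1589) (-1453) 193 2208 4995 (-2766) (-1784) 1988 vT vZ
def vq0 : P3 := quaR 279 (-1946) 1278 243 4301 (-2562) vT vZ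
def vc1 : P3 := cubR 101 2234 3267 4996 (-869) (-5000) (-4993) 2376 2086 (-1269) vT vZ
def vq1 : P3 := quaR (-17) (-2407) 4994 118 (-4995) 999 vT vZ
def vc2 : P3 := cubR 169 558 (-6) 3158 (-1109) 612 (-4893) 3077 1353 (-1730) vT vZ
def vq2 : P3 := quaR 32 (-30) 1667 (-1163) (-4992) 3665 vT vZ

/-- `50 * 10^9` times `500 F` -/
def vF (a b : P3) : P3 := R3.add (im 50 a) (R3.mul vC b)

/-- `5 * 10^14` times `500 V` -/
def vV : P3 :=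
  R3.add (im 2 (R3.mul (R3.mul vZ vZ) (R3.add (im 50 (vF vc1 vq1)) (R3.mul vC (vF vc2 vq2)))))
    (R3.mul vS (R3.add (im 2000 vcG) (R3.add (R3.ofI (-562750000000000))
      (im (-1) (R3.mul vZ (R3.add (im 4 (vF vc0 vq0)) (vF vc2 vq2)))))))

set_option maxRecDepth 100000 in
theorem vV_chk : chk 200 3 5 1 1 (.n3 (.n3 (.base (.n1 (.n2 (.n2 (.n1 .leaf .leaf) .leaf) (.n1 (.n1 .leaf .leaf) .leaf)) .leaf)) (.base (.n1 (.n2 (.n2 .leaf .leaf) (.n1 .leaf .leaf)) .leaf))) (.base (.n1 (.n2 (.n1 (.n2 .leaf .leaf) (.n1 .leaf (.n1 .leaf .leaf))) (.n1 (.n1 .leaf .leaf) .leaf)) .leaf))) vV = true := by decide +kernel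

theorem V5_nonneg (y σ w : ℝ) (hy : 0 ≤ y) (hy1 : y ≤ 1) (hσ : 0 ≤ σ) (hσ1 : σ ≤ 1) (hw : 0 ≤ w)
    (hw1 : w ≤ 1) : 0 ≤ ev3 y σ w vV :=
  chk_sound 200 3 5 1 1 _ vV vV_chk y σ w hy (by simpa using hy1) hσ (by simpa using hσ1) hw hw1

theorem ev_vV (y σ w z s t c : ℝ) (hz : z = 13 / 10 * y) (hs : s = (1 - 3 / 5 * z ^ 2) * σ)
    (ht : t = 1 - s) (hc : c = (58 * w - 29) / 50) :
    ev3 y σ w vV = 500000000000000 * (z ^ 2 * ((cub d5F1p t z + c * qua d5F1q t z) +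
      c * (cub d5F2p t z + c * qua d5F2q t z)) + s * (4 * cub d5Gp t z - 1125.5 -
      z * (4 * (cub d5F0p t z + c * qua d5F0q t z) + (cub d5F2p t z + c * qua d5F2q t z)))) := by
  have h := isEv3 y σ w
  have hZ : ev3 y σ w vZ = 10 * z := by
    unfold vZ
    rw [ev_im, ev_vX1, hz]
    push_cast
    ring
  have hS : ev3 y σ w vS = 1000 * s := by
    unfold vS
    simp only [h.mul, h.add, h.ofI, ev_im, ev_vX1, ev_vX2]
    rw [hs, hz]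
    push_cast
    ring
  have hT : ev3 y σ w vT = 1000 * t := by
    unfold vT
    simp only [h.add, h.ofI, ev_im, hS]
    rw [ht]
    push_cast
    ring
  have hC : ev3 y σ w vC = 50 * c := by
    unfold vC
    simp only [h.add, h.ofI, ev_im, ev_vX3]
    rw [hc]
    push_cast
    ring
  unfold vV vF vcG vc0 vq0 vc1 vq1 vc2 vq2
  simp only [h.mul, h.add, h.ofI, ev_im, hS, hC, hZ, ev_cubR y σ w _ _ _ _ _ _ _ _ _ _ vT vZ t z hT hZ,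
    ev_quaR y σ w _ _ _ _ _ _ vT vZ t z hT hZ]
  rw [cub_G, cub_F0, qua_F0, cub_F1, qua_F1, cub_F2, qua_F2]
  push_cast
  ring

end

theorem K5_curv (l : Fin 4 → ℝ) (h1 : ∑ i, l i = 0) (h2 : ∑ i, l i ^ 2 = 1) (s z : ℝ)
    (hs : 0 < s) (hz : 0 ≤ z) (hd : s + 3 / 5 * z ^ 2 ≤ 1) :
    0 ≤ z ^ 2 * K5.C0 s z (∑ j, l j ^ 3) (∑ j, l j ^ 4) +
      s * ((4 : ℕ) * K5.G.f s z (∑ j, l j ^ 3) -
        ((((4 : ℕ) : ℝ) - 1) ^ 2 / 4 + 1 / 1000) * K5.e.f s z (∑ j, l j ^ 3) -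
        z * ((4 : ℕ) * K5.F0.f s z (∑ j, l j ^ 3) + K5.F2.f s z (∑ j, l j ^ 3) +
          (∑ j, l j ^ 3) * K5.F3.f s z (∑ j, l j ^ 3))) := by
  have hc := cube4_sq h1 h2
  generalize (∑ j, l j ^ 3) = c at hc
  generalize (∑ j, l j ^ 4) = D
  have hc1 : c ≤ 0.58 := by nlinarith
  have hc2 : -0.58 ≤ c := by nlinarith
  have hq : 0 < 1 - 3 / 5 * z ^ 2 := by linarith
  have hz1 : z ≤ 13 / 10 := by nlinarith
  have h := V5_nonneg (10 / 13 * z) (s / (1 - 3 / 5 * z ^ 2)) ((50 * c + 29) / 58) (by positivity)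
    (by linarith) (by positivity) (by rw [div_le_one hq]; linarith) (by linarith) (by linarith)
  rw [ev_vV _ _ _ z s (1 - s) c (by ring) (by rw [mul_comm, div_mul_cancel₀ _ hq.ne']) rfl (by ring)] at h
  show 0 ≤ z ^ 2 * ((cub d5F1p (1 - s) z + c * qua d5F1q (1 - s) z) / 500 +
    c * ((cub d5F2p (1 - s) z + c * qua d5F2q (1 - s) z) / 500) + D * 0) +
    s * ((4 : ℕ) * ((cub d5Gp (1 - s) z + c * qua d5Gq (1 - s) z) / 500) -
      ((((4 : ℕ) : ℝ) - 1) ^ 2 / 4 + 1 / 1000) * 1 -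
      z * ((4 : ℕ) * ((cub d5F0p (1 - s) z + c * qua d5F0q (1 - s) z) / 500) +
        (cub d5F2p (1 - s) z + c * qua d5F2q (1 - s) z) / 500 + c * 0))
  rw [qua_G]
  generalize cub d5F1p (1 - s) z = A1 at h ⊢
  generalize qua d5F1q (1 - s) z = B1 at h ⊢
  generalize cub d5F2p (1 - s) z = A2 at h ⊢
  generalize qua d5F2q (1 - s) z = B2 at h ⊢
  generalize cub d5F0p (1 - s) z = A0 at h ⊢
  generalize qua d5F0q (1 - s) z = B0 at h ⊢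
  generalize cub d5Gp (1 - s) z = Ag at h ⊢
  have e : z ^ 2 * ((A1 + c * B1) / 500 + c * ((A2 + c * B2) / 500) + D * 0) +
    s * ((4 : ℕ) * ((Ag + c * 0) / 500) - ((((4 : ℕ) : ℝ) - 1) ^ 2 / 4 + 1 / 1000) * 1 -
      z * ((4 : ℕ) * ((A0 + c * B0) / 500) + (A2 + c * B2) / 500 + c * 0)) =
      (500000000000000 * (z ^ 2 * ((A1 + c * B1) + c * (A2 + c * B2)) + s * (4 * Ag - 1125.5 -
      z * (4 * (A0 + c * B0) + (A2 + c * B2))))) / (500000000000000 * 500) := by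
    push_cast
    ring
  rw [e]
  exact div_nonneg h (by norm_num)

end Vale.Agent.P098
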