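import Vale.Agent.Lib.P098.Bld.KMain
import Vale.Agent.Lib.P098.Cert.BP5
import Vale.Agent.Lib.P098.Cert.V5

/-!
# P098: assembly of the hypotheses on the certificate `K5`
-/

namespace Vale.Agent.P098

/-- the flat inequality for `K5` -/
def K5Flat : Prop := ∀ l : Fin 4 → ℝ, ∑ i, l i = 0 → ∑ i, l i ^ 2 = 1 → ∀ s z : ℝ, 0 < s →
    0 ≤ z → s + 3 / 5 * z ^ 2 ≤ 1 → ∀ (i : Fin 4) (t : Fin 4 → ℝ), ∑ j, t j = 0 → ∀ y r : ℝ,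
    0 ≤ s * K5.form (51 / 100) s z (∑ j, l j ^ 3) (l i) (3 * ∑ j, t j ^ 2 - 2 * t i ^ 2)
      (∑ j, l j * t j) (∑ j, l j ^ 2 * t j) y r +
      K5.C0 s z (∑ j, l j ^ 3) (∑ j, l j ^ 4) * r ^ 2

theorem K5_hyp (h : K5Flat) : K5.Hyp 4 (51 / 100) (1 / 1000) (3 / 5) where
  a_lo := by norm_num
  flat := h
  curv := K5_curv
  bdry := K5_bdry
  pos := K5_pos

theorem K5_certi (h : K5Flat) :
    Certi 5 (((5 : ℕ) - 2 : ℝ) / 2) (1 / 1000) (51 / 100) (3 / 5) (K5.toCS (51 / 100)) := by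
  have h1 := certi_of_hyp K5_good (K5_hyp h)
  have e : ((((4 : ℕ) : ℝ)) - 1) / 2 = ((5 : ℕ) - 2 : ℝ) / 2 := by norm_num
  rw [e] at h1
  exact h1

end Vale.Agent.P098
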