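import Vale.Agent.Lib.P098.Bld.KUp

/-!
# P098: the concrete certificate for `d = 5`

`E = N^(51/100)`, and `G, F₀, F₁, F₂` are polynomials of total degree three in `t = 1 - s`, `z`,
`c`, linear in `c`, with coefficients in `ℤ/500`.
-/

open scoped ContDiff

namespace Vale.Agent.P098

/-- general cubic in `t`, `z` -/
def cub (p : Fin 10 → ℝ) (t z : ℝ) : ℝ :=
  p 0 + p 1 * z + p 2 * z ^ 2 + p 3 * z ^ 3 + p 4 * t + p 5 * (t * z) + p 6 * (t * z ^ 2) +
    p 7 * t ^ 2 + p 8 * (t ^ 2 * z) + p 9 * t ^ 3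

/-- `t`-derivative of a cubic -/
def cubt (p : Fin 10 → ℝ) (t z : ℝ) : ℝ :=
  p 4 + p 5 * z + p 6 * z ^ 2 + 2 * p 7 * t + 2 * p 8 * (t * z) + 3 * p 9 * t ^ 2

/-- `z`-derivative of a cubic -/
def cubz (p : Fin 10 → ℝ) (t z : ℝ) : ℝ :=
  p 1 + 2 * p 2 * z + 3 * p 3 * z ^ 2 + p 5 * t + 2 * p 6 * (t * z) + p 8 * t ^ 2

/-- general quadratic polynomial in `t`, `z` -/
def qua (q : Fin 6 → ℝ) (t z : ℝ) : ℝ :=
  q 0 + q 1 * z + q 2 * z ^ 2 + q 3 * t + q 4 * (t * z) + q 5 * t ^ 2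

/-- `t`-derivative -/
def quat (q : Fin 6 → ℝ) (t z : ℝ) : ℝ := q 3 + q 4 * z + 2 * q 5 * t

/-- `z`-derivative -/
def quaz (q : Fin 6 → ℝ) (t z : ℝ) : ℝ := q 1 + 2 * q 2 * z + q 4 * t

/-- the coefficient function `(P(1-s,z) + c Q(1-s,z)) / 500` -/
noncomputable def mkKF (p : Fin 10 → ℝ) (q : Fin 6 → ℝ) : KF where
  f := fun s z c => (cub p (1 - s) z + c * qua q (1 - s) z) / 500
  fs := fun s z c => -(cubt p (1 - s) z + c * quat q (1 - s) z) / 500
  fz := fun s z c => (cubz p (1 - s) z + c * quaz q (1 - s) z) / 500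
  fc := fun s z _ => qua q (1 - s) z / 500

theorem hasDerivAt_cub_t (p : Fin 10 → ℝ) (t z : ℝ) :
    HasDerivAt (fun t => cub p t z) (cubt p t z) t := by
  have h1 := hasDerivAt_id t
  have h2 := h1.pow 2
  have h3 := h1.pow 3
  have h := ((((((hasDerivAt_const t (p 0 + p 1 * z + p 2 * z ^ 2 + p 3 * z ^ 3)).add
    (h1.const_mul (p 4))).add ((h1.mul_const z).const_mul (p 5))).add
    ((h1.mul_const (z ^ 2)).const_mul (p 6))).add (h2.const_mul (p 7))).add
    ((h2.mul_const z).const_mul (p 8))).add (h3.const_mul (p 9))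
  refine h.congr_deriv ?_
  simp only [id, cubt]
  norm_num
  ring

theorem hasDerivAt_cub_z (p : Fin 10 → ℝ) (t z : ℝ) :
    HasDerivAt (fun z => cub p t z) (cubz p t z) z := by
  have h1 := hasDerivAt_id z
  have h2 := h1.pow 2
  have h3 := h1.pow 3
  have h := (((((((((hasDerivAt_const z (p 0)).add (h1.const_mul (p 1))).add
    (h2.const_mul (p 2))).add (h3.const_mul (p 3))).add (hasDerivAt_const z (p 4 * t))).add
    ((h1.const_mul t).const_mul (p 5))).add ((h2.const_mul t).const_mul (p 6))).add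
    (hasDerivAt_const z (p 7 * t ^ 2))).add ((h1.const_mul (t ^ 2)).const_mul (p 8))).add
    (hasDerivAt_const z (p 9 * t ^ 3))
  refine h.congr_deriv ?_
  simp only [id, cubz]
  norm_num
  ring

theorem hasDerivAt_qua_t (q : Fin 6 → ℝ) (t z : ℝ) :
    HasDerivAt (fun t => qua q t z) (quat q t z) t := by
  have h1 := hasDerivAt_id t
  have h2 := h1.pow 2
  have h := (((hasDerivAt_const t (q 0 + q 1 * z + q 2 * z ^ 2)).add
    (h1.const_mul (q 3))).add ((h1.mul_const z).const_mul (q 4))).add (h2.const_mul (q 5))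
  refine h.congr_deriv ?_
  simp only [id, quat]
  norm_num
  ring

theorem hasDerivAt_qua_z (q : Fin 6 → ℝ) (t z : ℝ) :
    HasDerivAt (fun z => qua q t z) (quaz q t z) z := by
  have h1 := hasDerivAt_id z
  have h2 := h1.pow 2
  have h := (((((hasDerivAt_const z (q 0)).add (h1.const_mul (q 1))).add
    (h2.const_mul (q 2))).add (hasDerivAt_const z (q 3 * t))).add
    ((h1.const_mul t).const_mul (q 4))).add (hasDerivAt_const z (q 5 * t ^ 2))
  refine h.congr_deriv ?_
  simp only [id, quaz]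
  norm_num
  ring

theorem mkKF_good (p : Fin 10 → ℝ) (q : Fin 6 → ℝ) : (mkKF p q).Good where
  smooth := by
    have h0 : ContDiff ℝ ∞ (fun w : Fin 3 → ℝ => 1 - w 0) :=
      contDiff_const.sub (contDiff_apply ℝ ℝ (0 : Fin 3))
    have h1 : ContDiff ℝ ∞ (fun w : Fin 3 → ℝ => w 1) := contDiff_apply ℝ ℝ (1 : Fin 3)
    have h2 : ContDiff ℝ ∞ (fun w : Fin 3 → ℝ => w 2) := contDiff_apply ℝ ℝ (2 : Fin 3)
    show ContDiff ℝ ∞ (fun w : Fin 3 → ℝ =>
      (cub p (1 - w 0) (w 1) + w 2 * qua q (1 - w 0) (w 1)) / 500)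
    unfold cub qua
    fun_prop
  hs := by
    intro s z c
    have h1 : HasDerivAt (fun s : ℝ => 1 - s) (-1) s := by
      simpa using (hasDerivAt_id s).const_sub 1
    have h2 := (hasDerivAt_cub_t p (1 - s) z).comp s h1
    have h3 := (hasDerivAt_qua_t q (1 - s) z).comp s h1
    have h := (h2.add (h3.const_mul c)).div_const 500
    refine h.congr_deriv ?_
    show _ = -(cubt p (1 - s) z + c * quat q (1 - s) z) / 500
    ring
  hz := by
    intro s z c
    exact ((hasDerivAt_cub_z p (1 - s) z).add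
      ((hasDerivAt_qua_z q (1 - s) z).const_mul c)).div_const 500
  hc := by
    intro s z c
    have h := ((hasDerivAt_const c (cub p (1 - s) z)).add
      ((hasDerivAt_id c).mul_const (qua q (1 - s) z))).div_const 500
    refine h.congr_deriv ?_
    show _ = qua q (1 - s) z / 500
    ring

/-- the constant function one -/
def oneKF : KF where
  f := fun _ _ _ => 1
  fs := fun _ _ _ => 0
  fz := fun _ _ _ => 0
  fc := fun _ _ _ => 0

theorem oneKF_good : oneKF.Good where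
  smooth := contDiff_const
  hs := fun s _ _ => hasDerivAt_const s 1
  hz := fun _ z _ => hasDerivAt_const z 1
  hc := fun _ _ c => hasDerivAt_const c 1

/-- the zero function -/
def zeroKF : KF where
  f := fun _ _ _ => 0
  fs := fun _ _ _ => 0
  fz := fun _ _ _ => 0
  fc := fun _ _ _ => 0

theorem zeroKF_good : zeroKF.Good where
  smooth := contDiff_const
  hs := fun s _ _ => hasDerivAt_const s 0
  hz := fun _ z _ => hasDerivAt_const z 0
  hc := fun _ _ c => hasDerivAt_const c 0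

/-- data of `G` -/
def d5Gp : Fin 10 → ℝ := ![296, 145, 102, 2207, 144, 17, 712, (-461), 82, 331]

/-- data of `G` -/
def d5Gq : Fin 6 → ℝ := ![0, 0, 0, 0, 0, 0]

/-- data of `F0` -/
def d5F0p : Fin 10 → ℝ := ![60, 1371, (-1589), (-1453), 193, 2208, 4995, (-2766), (-1784), 1988]

/-- data of `F0` -/
def d5F0q : Fin 6 → ℝ := ![279, (-1946), 1278, 243, 4301, (-2562)]

/-- data of `F1` -/
def d5F1p : Fin 10 → ℝ := ![101, 2234, 3267, 4996, (-869), (-5000), (-4993), 2376, 2086, (-1269)]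

/-- data of `F1` -/
def d5F1q : Fin 6 → ℝ := ![(-17), (-2407), 4994, 118, (-4995), 999]

/-- data of `F2` -/
def d5F2p : Fin 10 → ℝ := ![169, 558, (-6), 3158, (-1109), 612, (-4893), 3077, 1353, (-1730)]

/-- data of `F2` -/
def d5F2q : Fin 6 → ℝ := ![32, (-30), 1667, (-1163), (-4992), 3665]

/-- **the certificate for `d = 5`** -/
noncomputable def K5 : KCert where
  e := oneKF
  G := mkKF d5Gp d5Gq
  F0 := mkKF d5F0p d5F0q
  F1 := mkKF d5F1p d5F1q
  F2 := mkKF d5F2p d5F2q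
  F3 := zeroKF

theorem K5_good : K5.Good where
  e := oneKF_good
  G := mkKF_good _ _
  F0 := mkKF_good _ _
  F1 := mkKF_good _ _
  F2 := mkKF_good _ _
  F3 := zeroKF_good

theorem cub_G (t z : ℝ) : cub d5Gp t z =
    296 + 145 * z + 102 * z ^ 2 + 2207 * z ^ 3 + 144 * t + 17 * (t * z) + 712 * (t * z ^ 2) - 461 * t ^ 2 +
    82 * (t ^ 2 * z) + 331 * t ^ 3 := by
  unfold cub d5Gp
  simp only [Matrix.cons_val_zero, Matrix.cons_val_one, Matrix.cons_val]
  ring

theorem qua_G (t z : ℝ) : qua d5Gq t z =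
    0 := by
  unfold qua d5Gq
  simp only [Matrix.cons_val_zero, Matrix.cons_val_one, Matrix.cons_val]
  ring

theorem cubt_G (t z : ℝ) : cubt d5Gp t z =
    144 + 17 * z + 712 * z ^ 2 - 922 * t + 164 * (t * z) + 993 * t ^ 2 := by
  unfold cubt d5Gp
  simp only [Matrix.cons_val_zero, Matrix.cons_val_one, Matrix.cons_val]
  ring

theorem cubz_G (t z : ℝ) : cubz d5Gp t z =
    145 + 204 * z + 6621 * z ^ 2 + 17 * t + 1424 * (t * z) + 82 * t ^ 2 := by
  unfold cubz d5Gp
  simp only [Matrix.cons_val_zero, Matrix.cons_val_one, Matrix.cons_val]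
  ring

theorem quat_G (t z : ℝ) : quat d5Gq t z = 0 := by
  unfold quat d5Gq
  simp only [Matrix.cons_val_zero, Matrix.cons_val_one, Matrix.cons_val]
  ring

theorem quaz_G (t z : ℝ) : quaz d5Gq t z = 0 := by
  unfold quaz d5Gq
  simp only [Matrix.cons_val_zero, Matrix.cons_val_one, Matrix.cons_val]
  ring

theorem cub_F0 (t z : ℝ) : cub d5F0p t z =
    60 + 1371 * z - 1589 * z ^ 2 - 1453 * z ^ 3 + 193 * t + 2208 * (t * z) + 4995 * (t * z ^ 2) -
    2766 * t ^ 2 - 1784 * (t ^ 2 * z) + 1988 * t ^ 3 := by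
  unfold cub d5F0p
  simp only [Matrix.cons_val_zero, Matrix.cons_val_one, Matrix.cons_val]
  ring

theorem qua_F0 (t z : ℝ) : qua d5F0q t z =
    279 - 1946 * z + 1278 * z ^ 2 + 243 * t + 4301 * (t * z) - 2562 * t ^ 2 := by
  unfold qua d5F0q
  simp only [Matrix.cons_val_zero, Matrix.cons_val_one, Matrix.cons_val]
  ring

theorem cubt_F0 (t z : ℝ) : cubt d5F0p t z =
    193 + 2208 * z + 4995 * z ^ 2 - 5532 * t - 3568 * (t * z) + 5964 * t ^ 2 := by
  unfold cubt d5F0p
  simp only [Matrix.cons_val_zero, Matrix.cons_val_one, Matrix.cons_val]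
  ring

theorem cubz_F0 (t z : ℝ) : cubz d5F0p t z =
    1371 - 3178 * z - 4359 * z ^ 2 + 2208 * t + 9990 * (t * z) - 1784 * t ^ 2 := by
  unfold cubz d5F0p
  simp only [Matrix.cons_val_zero, Matrix.cons_val_one, Matrix.cons_val]
  ring

theorem quat_F0 (t z : ℝ) : quat d5F0q t z = 243 + 4301 * z - 5124 * t := by
  unfold quat d5F0q
  simp only [Matrix.cons_val_zero, Matrix.cons_val_one, Matrix.cons_val]
  ring

theorem quaz_F0 (t z : ℝ) : quaz d5F0q t z = -1946 + 2556 * z + 4301 * t := by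
  unfold quaz d5F0q
  simp only [Matrix.cons_val_zero, Matrix.cons_val_one, Matrix.cons_val]
  ring

theorem cub_F1 (t z : ℝ) : cub d5F1p t z =
    101 + 2234 * z + 3267 * z ^ 2 + 4996 * z ^ 3 - 869 * t - 5000 * (t * z) - 4993 * (t * z ^ 2) +
    2376 * t ^ 2 + 2086 * (t ^ 2 * z) - 1269 * t ^ 3 := by
  unfold cub d5F1p
  simp only [Matrix.cons_val_zero, Matrix.cons_val_one, Matrix.cons_val]
  ring

theorem qua_F1 (t z : ℝ) : qua d5F1q t z =
    -17 - 2407 * z + 4994 * z ^ 2 + 118 * t - 4995 * (t * z) + 999 * t ^ 2 := by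
  unfold qua d5F1q
  simp only [Matrix.cons_val_zero, Matrix.cons_val_one, Matrix.cons_val]
  ring

theorem cubt_F1 (t z : ℝ) : cubt d5F1p t z =
    -869 - 5000 * z - 4993 * z ^ 2 + 4752 * t + 4172 * (t * z) - 3807 * t ^ 2 := by
  unfold cubt d5F1p
  simp only [Matrix.cons_val_zero, Matrix.cons_val_one, Matrix.cons_val]
  ring

theorem cubz_F1 (t z : ℝ) : cubz d5F1p t z =
    2234 + 6534 * z + 14988 * z ^ 2 - 5000 * t - 9986 * (t * z) + 2086 * t ^ 2 := by
  unfold cubz d5F1p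
  simp only [Matrix.cons_val_zero, Matrix.cons_val_one, Matrix.cons_val]
  ring

theorem quat_F1 (t z : ℝ) : quat d5F1q t z = 118 - 4995 * z + 1998 * t := by
  unfold quat d5F1q
  simp only [Matrix.cons_val_zero, Matrix.cons_val_one, Matrix.cons_val]
  ring

theorem quaz_F1 (t z : ℝ) : quaz d5F1q t z = -2407 + 9988 * z - 4995 * t := by
  unfold quaz d5F1q
  simp only [Matrix.cons_val_zero, Matrix.cons_val_one, Matrix.cons_val]
  ring

theorem cub_F2 (t z : ℝ) : cub d5F2p t z =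
    169 + 558 * z - 6 * z ^ 2 + 3158 * z ^ 3 - 1109 * t + 612 * (t * z) - 4893 * (t * z ^ 2) + 3077 * t ^ 2 +
    1353 * (t ^ 2 * z) - 1730 * t ^ 3 := by
  unfold cub d5F2p
  simp only [Matrix.cons_val_zero, Matrix.cons_val_one, Matrix.cons_val]
  ring

theorem qua_F2 (t z : ℝ) : qua d5F2q t z =
    32 - 30 * z + 1667 * z ^ 2 - 1163 * t - 4992 * (t * z) + 3665 * t ^ 2 := by
  unfold qua d5F2q
  simp only [Matrix.cons_val_zero, Matrix.cons_val_one, Matrix.cons_val]
  ring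

theorem cubt_F2 (t z : ℝ) : cubt d5F2p t z =
    -1109 + 612 * z - 4893 * z ^ 2 + 6154 * t + 2706 * (t * z) - 5190 * t ^ 2 := by
  unfold cubt d5F2p
  simp only [Matrix.cons_val_zero, Matrix.cons_val_one, Matrix.cons_val]
  ring

theorem cubz_F2 (t z : ℝ) : cubz d5F2p t z =
    558 - 12 * z + 9474 * z ^ 2 + 612 * t - 9786 * (t * z) + 1353 * t ^ 2 := by
  unfold cubz d5F2p
  simp only [Matrix.cons_val_zero, Matrix.cons_val_one, Matrix.cons_val]
  ring

theorem quat_F2 (t z : ℝ) : quat d5F2q t z = -1163 - 4992 * z + 7330 * t := by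
  unfold quat d5F2q
  simp only [Matrix.cons_val_zero, Matrix.cons_val_one, Matrix.cons_val]
  ring

theorem quaz_F2 (t z : ℝ) : quaz d5F2q t z = -30 + 3334 * z - 4992 * t := by
  unfold quaz d5F2q
  simp only [Matrix.cons_val_zero, Matrix.cons_val_one, Matrix.cons_val]
  ring

end Vale.Agent.P098
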