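import Vale.Agent.Lib.P098.Chk.Kron
import Vale.Agent.Lib.P098.Bld.Elim
import Vale.Agent.Lib.P098.Cert.K5

/-!
# P098: the scalar `FF` of the certificate `K5` as an expression for the kernel checker
-/

namespace Vale.Agent.P098

open Kron

/-- cubic in `T`, `Z` (Horner) -/
def cubE (p : Fin 10 → ℤ) (T Z : Ex) : Ex :=
  .add (.add (.c (p 0)) (.mul Z (.add (.c (p 1)) (.mul Z (.add (.c (p 2)) (.mul Z (.c (p 3))))))))
    (.mul T (.add (.add (.c (p 4)) (.mul Z (.add (.c (p 5)) (.mul Z (.c (p 6))))))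
      (.mul T (.add (.add (.c (p 7)) (.mul Z (.c (p 8)))) (.mul T (.c (p 9)))))))

def cubtE (p : Fin 10 → ℤ) (T Z : Ex) : Ex :=
  .add (.add (.c (p 4)) (.mul Z (.add (.c (p 5)) (.mul Z (.c (p 6))))))
    (.mul T (.add (.mul (.c 2) (.add (.c (p 7)) (.mul Z (.c (p 8)))))
      (.mul (.c 3) (.mul T (.c (p 9))))))

def cubzE (p : Fin 10 → ℤ) (T Z : Ex) : Ex :=
  .add (.add (.c (p 1)) (.mul Z (.add (.mul (.c 2) (.c (p 2))) (.mul (.c 3) (.mul Z (.c (p 3)))))))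
    (.mul T (.add (.add (.c (p 5)) (.mul (.c 2) (.mul Z (.c (p 6))))) (.mul T (.c (p 8)))))

def quaE (q : Fin 6 → ℤ) (T Z : Ex) : Ex :=
  .add (.add (.c (q 0)) (.mul Z (.add (.c (q 1)) (.mul Z (.c (q 2))))))
    (.mul T (.add (.add (.c (q 3)) (.mul Z (.c (q 4)))) (.mul T (.c (q 5)))))

def quatE (q : Fin 6 → ℤ) (T Z : Ex) : Ex :=
  .add (.add (.c (q 3)) (.mul Z (.c (q 4)))) (.mul (.c 2) (.mul T (.c (q 5))))

def quazE (q : Fin 6 → ℤ) (T Z : Ex) : Ex :=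
  .add (.add (.c (q 1)) (.mul (.c 2) (.mul Z (.c (q 2))))) (.mul T (.c (q 4)))

variable (xs : Fin 4 → ℝ) (env : List ℝ)

theorem ev_cubE (p : Fin 10 → ℤ) (T Z : Ex) :
    ev xs (cubE p T Z) env = cub (fun i => (p i : ℝ)) (ev xs T env) (ev xs Z env) := by
  simp only [cubE, ev, cub]; ring

theorem ev_cubtE (p : Fin 10 → ℤ) (T Z : Ex) :
    ev xs (cubtE p T Z) env = cubt (fun i => (p i : ℝ)) (ev xs T env) (ev xs Z env) := by
  simp only [cubtE, ev, cubt]; push_cast; ring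

theorem ev_cubzE (p : Fin 10 → ℤ) (T Z : Ex) :
    ev xs (cubzE p T Z) env = cubz (fun i => (p i : ℝ)) (ev xs T env) (ev xs Z env) := by
  simp only [cubzE, ev, cubz]; push_cast; ring

theorem ev_quaE (p : Fin 6 → ℤ) (T Z : Ex) :
    ev xs (quaE p T Z) env = qua (fun i => (p i : ℝ)) (ev xs T env) (ev xs Z env) := by
  simp only [quaE, ev, qua]; ring

theorem ev_quatE (p : Fin 6 → ℤ) (T Z : Ex) :
    ev xs (quatE p T Z) env = quat (fun i => (p i : ℝ)) (ev xs T env) (ev xs Z env) := by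
  simp only [quatE, ev, quat]; push_cast; ring

theorem ev_quazE (p : Fin 6 → ℤ) (T Z : Ex) :
    ev xs (quazE p T Z) env = quaz (fun i => (p i : ℝ)) (ev xs T env) (ev xs Z env) := by
  simp only [quazE, ev, quaz]; push_cast; ring

/-! ## integer data -/

def z5Gp : Fin 10 → ℤ := ![296, 145, 102, 2207, 144, 17, 712, (-461), 82, 331]
def z5F0p : Fin 10 → ℤ := ![60, 1371, (-1589), (-1453), 193, 2208, 4995, (-2766), (-1784), 1988]
def z5F0q : Fin 6 → ℤ := ![279, (-1946), 1278, 243, 4301, (-2562)]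
def z5F1p : Fin 10 → ℤ := ![101, 2234, 3267, 4996, (-869), (-5000), (-4993), 2376, 2086, (-1269)]
def z5F1q : Fin 6 → ℤ := ![(-17), (-2407), 4994, 118, (-4995), 999]
def z5F2p : Fin 10 → ℤ := ![169, 558, (-6), 3158, (-1109), 612, (-4893), 3077, 1353, (-1730)]
def z5F2q : Fin 6 → ℤ := ![32, (-30), 1667, (-1163), (-4992), 3665]

theorem z5Gp_eq : (fun i => (z5Gp i : ℝ)) = d5Gp := by
  funext i; fin_cases i <;> simp [z5Gp, d5Gp]
theorem z5F0p_eq : (fun i => (z5F0p i : ℝ)) = d5F0p := by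
  funext i; fin_cases i <;> simp [z5F0p, d5F0p]
theorem z5F0q_eq : (fun i => (z5F0q i : ℝ)) = d5F0q := by
  funext i; fin_cases i <;> simp [z5F0q, d5F0q]
theorem z5F1p_eq : (fun i => (z5F1p i : ℝ)) = d5F1p := by
  funext i; fin_cases i <;> simp [z5F1p, d5F1p]
theorem z5F1q_eq : (fun i => (z5F1q i : ℝ)) = d5F1q := by
  funext i; fin_cases i <;> simp [z5F1q, d5F1q]
theorem z5F2p_eq : (fun i => (z5F2p i : ℝ)) = d5F2p := by
  funext i; fin_cases i <;> simp [z5F2p, d5F2p]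
theorem z5F2q_eq : (fun i => (z5F2q i : ℝ)) = d5F2q := by
  funext i; fin_cases i <;> simp [z5F2q, d5F2q]

/-! ## the expression; environment `[c, t]`, variables `z = x1`, `x = x2` -/

/-- `(cub + c qua)/500` -/
def pqE (P Q C : Ex) : Ex := .mul (.q 1 500) (.add P (.mul C Q))

/-- the tail: environment `[ρ, c, t]` -/
def FFt : Ex :=
  -- G, Gt, Gz
  .letE (.mul (.q 1 500) (cubE z5Gp (.v 2) .x1)) <|
  .letE (.mul (.q 1 500) (cubtE z5Gp (.v 3) .x1)) <|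
  .letE (.mul (.q 1 500) (cubzE z5Gp (.v 4) .x1)) <|
  -- env: Gz, Gt, G, ρ, c, t ; next F0, F0t, F0z, F0c
  .letE (pqE (cubE z5F0p (.v 5) .x1) (quaE z5F0q (.v 5) .x1) (.v 4)) <|
  .letE (pqE (cubtE z5F0p (.v 6) .x1) (quatE z5F0q (.v 6) .x1) (.v 5)) <|
  .letE (pqE (cubzE z5F0p (.v 7) .x1) (quazE z5F0q (.v 7) .x1) (.v 6)) <|
  .letE (.mul (.q 1 500) (quaE z5F0q (.v 8) .x1)) <|
  -- env: F0c F0z F0t F0 Gz Gt G ρ c t
  .letE (pqE (cubE z5F1p (.v 9) .x1) (quaE z5F1q (.v 9) .x1) (.v 8)) <|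
  .letE (pqE (cubtE z5F1p (.v 10) .x1) (quatE z5F1q (.v 10) .x1) (.v 9)) <|
  .letE (pqE (cubzE z5F1p (.v 11) .x1) (quazE z5F1q (.v 11) .x1) (.v 10)) <|
  .letE (.mul (.q 1 500) (quaE z5F1q (.v 12) .x1)) <|
  -- env: F1c F1z F1t F1 F0c F0z F0t F0 Gz Gt G ρ c t
  .letE (pqE (cubE z5F2p (.v 13) .x1) (quaE z5F2q (.v 13) .x1) (.v 12)) <|
  .letE (pqE (cubtE z5F2p (.v 14) .x1) (quatE z5F2q (.v 14) .x1) (.v 13)) <|
  .letE (pqE (cubzE z5F2p (.v 15) .x1) (quazE z5F2q (.v 15) .x1) (.v 14)) <|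
  .letE (.mul (.q 1 500) (quaE z5F2q (.v 16) .x1)) <|
  -- env: F2c0 F2z1 F2t2 F2 3 F1c4 F1z5 F1t6 F1 7 F0c8 F0z9 F0t10 F0 11 Gz12 Gt13 G14 ρ15 c16 t17
  -- cX
  .letE (.add (.add (.sub (.v 12) (.mul (.c 2) (.mul .x2 (.v 13))))
      (.sub (.add (.mul (.q 101 50) (.v 11)) (.mul .x1 (.v 9))) (.mul (.c 3) (.mul (.v 16) (.v 8)))))
    (.add (.v 3) (.mul .x2 (.add
      (.sub (.add (.mul (.q 51 50) (.v 7)) (.mul .x1 (.v 5))) (.mul (.c 3) (.mul (.v 16) (.v 4))))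
      (.mul .x2 (.sub (.add (.mul (.q 1 50) (.v 3)) (.mul .x1 (.v 1)))
        (.mul (.c 3) (.mul (.v 16) (.v 0))))))))) <|
  -- cV ; indices shifted by one
  .letE (.mul (.c 3) (.add (.v 9) (.mul .x2 (.add (.v 5) (.mul .x2 (.v 1)))))) <|
  -- s cr + C0 ; shifted by two
  .letE (.add (.mul (.sub (.c 1) (.v 19))
      (.add (.sub (.v 11) (.mul (.c 2) (.mul .x2 (.v 12))))
        (.mul .x2 (.add (.sub (.v 7) (.mul (.c 2) (.mul .x2 (.v 8))))
          (.mul .x2 (.sub (.v 3) (.mul (.c 2) (.mul .x2 (.v 4)))))))))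
    (.add (.v 9) (.mul (.v 18) (.v 5)))) <|
  -- Kx ; shifted by three
  .letE (.mul (.q 1 9) (.add (.c 3) (.mul (.c 4) (.mul .x2 .x2)))) <|
  -- Kxv ; c = v 20
  .letE (.mul (.q 1 9) (.add (.mul (.c 3) (.v 20)) (.mul .x2 (.sub (.mul (.c 4) (.mul .x2 .x2))
    (.c 1))))) <|
  -- Kvv ; c = v 21
  .letE (.mul (.q 1 9) (.sub (.add (.c 1) (.mul (.mul .x2 .x2) (.sub (.mul (.c 16)
    (.mul .x2 .x2)) (.c 8)))) (.mul (.c 4) (.mul (.v 21) .x2)))) <|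
  -- env: Kvv0 Kxv1 Kx2 SC3 cV4 cX5 ; F2c6 ... F1c10 F0c14 Gz18 Gt19 G20 ρ21 c22 t23
  .add (.sub
    (.mul (.c 4) (.mul (.sub (.v 20) (.mul (.v 2) (.sub (.q 2601 10000)
      (.add (.mul (.q (-49) 50) (.v 20)) (.mul .x1 (.v 18)))))) (.v 3)))
    (.mul (.sub (.c 1) (.v 23)) (.add (.mul (.v 5) (.add (.mul (.v 5) (.v 2))
      (.mul (.c 2) (.mul (.v 4) (.v 1))))) (.mul (.mul (.v 4) (.v 4)) (.v 0)))))
    (.mul (.mul (.sub (.c 1) (.v 23)) (.v 21)) (.mul (.mul (.v 4) (.v 4))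
      (.sub (.mul (.v 2) (.v 0)) (.mul (.v 1) (.v 1)))))

/-- `L(z) = (p0 + p1 z)/1000` -/
def LE (p0 p1 : ℤ) : Ex := .mul (.q 1 1000) (.add (.c p0) (.mul (.c p1) .x1))

/-- the expression: `x0 = σ`, `x1 = z`, `x2 = x`, `x3 = η` -/
def FFe (p0 p1 q0 q1 r0 r1 : ℤ) : Ex :=
  .letE (.letE (LE p0 p1) (.add (.v 0) (.mul (.sub (.c 1) (.v 0)) .x0))) <|
  .letE (.add (.sub (.mul (.q 20 9) (.mul .x2 (.mul .x2 .x2))) .x2)
    (.mul (.mul (.q 1 1000) (.add (.c q0) (.mul (.c q1) .x2))) .x3)) <|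
  .letE (LE r0 r1) FFt

/-! ## value -/

theorem K5_cX (t z c x : ℝ) : K5.cX (51 / 100) (1 - t) z c x =
    ((1 / 500 * cubz d5Gp t z - 2 * (x * (1 / 500 * cubt d5Gp t z))) +
      ((101 / 50 * (1 / 500 * (cub d5F0p t z + c * qua d5F0q t z)) +
        z * (1 / 500 * (cubz d5F0p t z + c * quaz d5F0q t z))) -
        3 * (c * (1 / 500 * qua d5F0q t z)))) +
    (1 / 500 * (cub d5F2p t z + c * qua d5F2q t z) +
      x * (((51 / 50 * (1 / 500 * (cub d5F1p t z + c * qua d5F1q t z)) +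
        z * (1 / 500 * (cubz d5F1p t z + c * quaz d5F1q t z))) -
        3 * (c * (1 / 500 * qua d5F1q t z))) +
      x * ((1 / 50 * (1 / 500 * (cub d5F2p t z + c * qua d5F2q t z)) +
        z * (1 / 500 * (cubz d5F2p t z + c * quaz d5F2q t z))) -
        3 * (c * (1 / 500 * qua d5F2q t z))))) := by
  have e : (1 : ℝ) - (1 - t) = t := by ring
  simp only [KCert.cX, K5, mkKF, zeroKF, e, qua_G, quat_G, quaz_G]
  ring

theorem K5_cV (t z c x : ℝ) : K5.cV (1 - t) z c x =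
    3 * (1 / 500 * qua d5F0q t z + x * (1 / 500 * qua d5F1q t z +
      x * (1 / 500 * qua d5F2q t z))) := by
  have e : (1 : ℝ) - (1 - t) = t := by ring
  simp only [KCert.cV, K5, mkKF, zeroKF, e]
  ring

theorem K5_SC (t z c x D : ℝ) : (1 - t) * K5.cr (1 - t) z c x + K5.C0 (1 - t) z c D =
    (1 - t) * ((1 / 500 * (cubz d5F0p t z + c * quaz d5F0q t z) -
        2 * (x * (1 / 500 * (cubt d5F0p t z + c * quat d5F0q t z)))) +
      x * ((1 / 500 * (cubz d5F1p t z + c * quaz d5F1q t z) -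
        2 * (x * (1 / 500 * (cubt d5F1p t z + c * quat d5F1q t z)))) +
      x * (1 / 500 * (cubz d5F2p t z + c * quaz d5F2q t z) -
        2 * (x * (1 / 500 * (cubt d5F2p t z + c * quat d5F2q t z)))))) +
    (1 / 500 * (cub d5F1p t z + c * qua d5F1q t z) +
      c * (1 / 500 * (cub d5F2p t z + c * qua d5F2q t z))) := by
  have e : (1 : ℝ) - (1 - t) = t := by ring
  simp only [KCert.cr, KCert.C0, K5, mkKF, zeroKF, e]
  ring

theorem K5_gb (t z c : ℝ) : K5.gb (51 / 100) (1 - t) z c =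
    2601 / 10000 - (-49 / 50 * (1 / 500 * cub d5Gp t z) + z * (1 / 500 * cubz d5Gp t z)) := by
  have e : (1 : ℝ) - (1 - t) = t := by ring
  simp only [KCert.gb, KCert.cXX, K5, mkKF, e, qua_G, quaz_G]
  ring

theorem K5_G (t z c : ℝ) : K5.G.f (1 - t) z c = 1 / 500 * cub d5Gp t z := by
  have e : (1 : ℝ) - (1 - t) = t := by ring
  simp only [K5, mkKF, e, qua_G]
  ring

theorem ev_FFt (t z c x ρ : ℝ) (hz : xs 1 = z) (hx : xs 2 = x) :
    ev xs FFt [ρ, c, t] = K5.FF 4 (51 / 100) ρ (1 - t) z c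
      (1 / 2 - 2 * x ^ 2 + 4 * x ^ 4 - 4 / 3 * c * x) x := by
  have hKx : Kx 4 x = 1 / 9 * (3 + 4 * (x * x)) := by unfold Kx; push_cast; ring
  have hKxv : Kxv 4 x c = 1 / 9 * (3 * c + x * (4 * (x * x) - 1)) := by
    unfold Kxv; push_cast; ring
  have hKvv : Kvv 4 x (1 / 2 - 2 * x ^ 2 + 4 * x ^ 4 - 4 / 3 * c * x) =
      1 / 9 * (1 + x * x * (16 * (x * x) - 8) - 4 * (c * x)) := by
    unfold Kvv; push_cast; ring
  rw [KCert.FF, K5_SC, K5_cX, K5_cV, K5_gb, K5_G, hKx, hKxv, hKvv]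
  simp only [FFt, pqE, ev, ev_cubE, ev_cubtE, ev_cubzE, ev_quaE, ev_quatE, ev_quazE,
    List.getD_cons_zero, List.getD_cons_succ, z5Gp_eq, z5F0p_eq, z5F0q_eq, z5F1p_eq, z5F1q_eq,
    z5F2p_eq, z5F2q_eq, hz, hx]
  generalize cub d5Gp t z = g0
  generalize cubt d5Gp t z = g1
  generalize cubz d5Gp t z = g2
  generalize cub d5F0p t z = a0
  generalize cubt d5F0p t z = a1
  generalize cubz d5F0p t z = a2
  generalize cub d5F1p t z = b0
  generalize cubt d5F1p t z = b1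
  generalize cubz d5F1p t z = b2
  generalize cub d5F2p t z = c0
  generalize cubt d5F2p t z = c1
  generalize cubz d5F2p t z = c2
  generalize qua d5F0q t z = a3
  generalize quat d5F0q t z = a4
  generalize quaz d5F0q t z = a5
  generalize qua d5F1q t z = b3
  generalize quat d5F1q t z = b4
  generalize quaz d5F1q t z = b5
  generalize qua d5F2q t z = c3
  generalize quat d5F2q t z = c4
  generalize quaz d5F2q t z = c5
  push_cast
  generalize hX : (1 / 500 * g2 - 2 * (x * (1 / 500 * g1)) +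
      (101 / 50 * (1 / 500 * (a0 + c * a3)) + z * (1 / 500 * (a2 + c * a5)) -
        3 * (c * (1 / 500 * a3))) +
    (1 / 500 * (c0 + c * c3) +
      x * (51 / 50 * (1 / 500 * (b0 + c * b3)) + z * (1 / 500 * (b2 + c * b5)) -
        3 * (c * (1 / 500 * b3)) +
      x * (1 / 50 * (1 / 500 * (c0 + c * c3)) + z * (1 / 500 * (c2 + c * c5)) -
        3 * (c * (1 / 500 * c3)))))) = X
  generalize hV : (3 * (1 / 500 * a3 + x * (1 / 500 * b3 + x * (1 / 500 * c3)))) = V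
  ring

/-- `L(z)` -/
noncomputable def Lf (p0 p1 : ℤ) (z : ℝ) : ℝ := 1 / 1000 * (p0 + p1 * z)

theorem ev_FFe (p0 p1 q0 q1 r0 r1 : ℤ) (σ z x η t c : ℝ)
    (ht : t = Lf p0 p1 z + (1 - Lf p0 p1 z) * σ)
    (hc : c = 20 / 9 * x ^ 3 - x + Lf q0 q1 x * η) :
    ev ![σ, z, x, η] (FFe p0 p1 q0 q1 r0 r1) [] = K5.FF 4 (51 / 100) (Lf r0 r1 z) (1 - t) z c
      (1 / 2 - 2 * x ^ 2 + 4 * x ^ 4 - 4 / 3 * c * x) x := by
  rw [← ev_FFt ![σ, z, x, η] t z c x (Lf r0 r1 z) rfl rfl]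
  simp only [FFe, LE, ev, List.getD_cons_zero]
  have e1 : ((1 : ℤ) / ((1000 : ℕ) : ℝ) : ℝ) * ((r0 : ℝ) + (r1 : ℝ) * ![σ, z, x, η] 1) =
      Lf r0 r1 z := by
    simp [Lf]
  have e2 : ((1 : ℤ) / ((1000 : ℕ) : ℝ) : ℝ) * ((p0 : ℝ) + (p1 : ℝ) * ![σ, z, x, η] 1) =
      Lf p0 p1 z := by
    simp [Lf]
  rw [e1, e2]
  congr 3
  · rw [hc]
    simp [Lf]
    ring
  · rw [ht]
    simp

end Vale.Agent.P098
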