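import Vale.Agent.Lib.P098.Cert.Bx5_8

/-! # P098, dimension 5: kernel checks of the boxes, `j = 10` -/

namespace Vale.Agent.P098.D5

open Kron

theorem bx_10_0 : chkT (FFe (-708) 1303 415 479 (-833) (-611)) .leaf
    ⟨⟨0, 1, 1⟩, ⟨1043, 1181, 1024⟩, ⟨-887, -739, 1024⟩, ⟨-1, 1, 1⟩, 447, 8, 8, 13, 3⟩ = true := by
  decide +kernel

theorem bx_10_1 : chkT (FFe (-708) 1303 570 694 (-833) (-611)) .leaf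
    ⟨⟨0, 1, 1⟩, ⟨1043, 1181, 1024⟩, ⟨-739, -591, 1024⟩, ⟨-1, 1, 1⟩, 447, 8, 8, 13, 3⟩ = true := by
  decide +kernel

theorem bx_10_2 : chkT (FFe (-708) 1303 565 685 (-833) (-611)) .leaf
    ⟨⟨0, 1, 1⟩, ⟨1043, 1181, 1024⟩, ⟨-591, -444, 1024⟩, ⟨-1, 1, 1⟩, 447, 8, 8, 13, 3⟩ = true := by
  decide +kernel

theorem bx_10_3 : chkT (FFe (-708) 1303 498 530 (-833) (-611)) .leaf
    ⟨⟨0, 1, 1⟩, ⟨1043, 1181, 1024⟩, ⟨-444, -296, 1024⟩, ⟨-1, 1, 1⟩, 447, 8, 8, 13, 3⟩ = true := by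
  decide +kernel

theorem bx_10_4 : chkT (FFe (-708) 1303 444 339 (-833) (-611)) .leaf
    ⟨⟨0, 1, 1⟩, ⟨1043, 1181, 1024⟩, ⟨-296, -148, 1024⟩, ⟨-1, 1, 1⟩, 447, 8, 8, 13, 3⟩ = true := by
  decide +kernel

theorem bx_10_5 : chkT (FFe (-708) 1303 413 124 (-833) (-611)) .leaf
    ⟨⟨0, 1, 1⟩, ⟨1043, 1181, 1024⟩, ⟨-148, 0, 1024⟩, ⟨-1, 1, 1⟩, 447, 8, 8, 13, 3⟩ = true := by
  decide +kernel

theorem bx_10_6 : chkT (FFe (-708) 1303 413 (-124) (-833) (-611)) .leaf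
    ⟨⟨0, 1, 1⟩, ⟨1043, 1181, 1024⟩, ⟨0, 148, 1024⟩, ⟨-1, 1, 1⟩, 447, 8, 8, 13, 3⟩ = true := by
  decide +kernel

theorem bx_10_7 : chkT (FFe (-708) 1303 444 (-339) (-833) (-611)) .leaf
    ⟨⟨0, 1, 1⟩, ⟨1043, 1181, 1024⟩, ⟨148, 296, 1024⟩, ⟨-1, 1, 1⟩, 447, 8, 8, 13, 3⟩ = true := by
  decide +kernel

theorem bx_10_8 : chkT (FFe (-708) 1303 498 (-530) (-833) (-611)) .leaf
    ⟨⟨0, 1, 1⟩, ⟨1043, 1181, 1024⟩, ⟨296, 444, 1024⟩, ⟨-1, 1, 1⟩, 447, 8, 8, 13, 3⟩ = true := by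
  decide +kernel

theorem bx_10_9 : chkT (FFe (-708) 1303 565 (-685) (-833) (-611)) .leaf
    ⟨⟨0, 1, 1⟩, ⟨1043, 1181, 1024⟩, ⟨444, 591, 1024⟩, ⟨-1, 1, 1⟩, 447, 8, 8, 13, 3⟩ = true := by
  decide +kernel

theorem bx_10_10 : chkT (FFe (-708) 1303 570 (-694) (-833) (-611)) .leaf
    ⟨⟨0, 1, 1⟩, ⟨1043, 1181, 1024⟩, ⟨591, 739, 1024⟩, ⟨-1, 1, 1⟩, 447, 8, 8, 13, 3⟩ = true := by
  decide +kernel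

theorem bx_10_11 : chkT (FFe (-708) 1303 415 (-479) (-833) (-611)) .leaf
    ⟨⟨0, 1, 1⟩, ⟨1043, 1181, 1024⟩, ⟨739, 887, 1024⟩, ⟨-1, 1, 1⟩, 447, 8, 8, 13, 3⟩ = true := by
  decide +kernel

theorem boxes_10 : ∀ i < 12, ∃ t : T,
    chkT (FFe (P0 10) (P1 10) (Q0 i) (Q1 i) (R0 10) (R1 10)) t (bxx 10 i) = true := by
  intro i hi
  match i, hi with
  | 0, _ => exact ⟨_, bx_10_0⟩
  | 1, _ => exact ⟨_, bx_10_1⟩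
  | 2, _ => exact ⟨_, bx_10_2⟩
  | 3, _ => exact ⟨_, bx_10_3⟩
  | 4, _ => exact ⟨_, bx_10_4⟩
  | 5, _ => exact ⟨_, bx_10_5⟩
  | 6, _ => exact ⟨_, bx_10_6⟩
  | 7, _ => exact ⟨_, bx_10_7⟩
  | 8, _ => exact ⟨_, bx_10_8⟩
  | 9, _ => exact ⟨_, bx_10_9⟩
  | 10, _ => exact ⟨_, bx_10_10⟩
  | 11, _ => exact ⟨_, bx_10_11⟩
  | n + 12, h => omega

end Vale.Agent.P098.D5
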