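import Vale.Agent.Lib.P098.Cert.Bx5_1

/-! # P098, dimension 5: kernel checks of the boxes, `j = 3` -/

namespace Vale.Agent.P098.D5

open Kron

theorem bx_3_0 : chkT (FFe (-41) 313 415 479 1763 (-4359)) (.s 0 .leaf (.s 0 .leaf .leaf))
    ⟨⟨0, 1, 1⟩, ⟨218, 317, 1024⟩, ⟨-887, -739, 1024⟩, ⟨-1, 1, 1⟩, 447, 8, 8, 13, 3⟩ = true := by
  decide +kernel

theorem bx_3_1 : chkT (FFe (-41) 313 570 694 1763 (-4359)) (.s 0 (.s 0 .leaf .leaf) .leaf)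
    ⟨⟨0, 1, 1⟩, ⟨218, 317, 1024⟩, ⟨-739, -591, 1024⟩, ⟨-1, 1, 1⟩, 447, 8, 8, 13, 3⟩ = true := by
  decide +kernel

theorem bx_3_2 : chkT (FFe (-41) 313 565 685 1763 (-4359)) (.s 0 (.s 0 .leaf (.s 0 (.s 1 .leaf .leaf) .leaf)) .leaf)
    ⟨⟨0, 1, 1⟩, ⟨218, 317, 1024⟩, ⟨-591, -444, 1024⟩, ⟨-1, 1, 1⟩, 447, 8, 8, 13, 3⟩ = true := by
  decide +kernel

theorem bx_3_3 : chkT (FFe (-41) 313 498 530 1763 (-4359)) (.s 0 (.s 0 .leaf (.s 0 (.s 0 .leaf .leaf) .leaf)) .leaf)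
    ⟨⟨0, 1, 1⟩, ⟨218, 317, 1024⟩, ⟨-444, -296, 1024⟩, ⟨-1, 1, 1⟩, 447, 8, 8, 13, 3⟩ = true := by
  decide +kernel

theorem bx_3_4 : chkT (FFe (-41) 313 444 339 1763 (-4359)) (.s 0 (.s 0 .leaf .leaf) (.s 3 .leaf .leaf))
    ⟨⟨0, 1, 1⟩, ⟨218, 317, 1024⟩, ⟨-296, -148, 1024⟩, ⟨-1, 1, 1⟩, 447, 8, 8, 13, 3⟩ = true := by
  decide +kernel

theorem bx_3_5 : chkT (FFe (-41) 313 413 124 1763 (-4359)) (.s 3 .leaf .leaf)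
    ⟨⟨0, 1, 1⟩, ⟨218, 317, 1024⟩, ⟨-148, 0, 1024⟩, ⟨-1, 1, 1⟩, 447, 8, 8, 13, 3⟩ = true := by
  decide +kernel

theorem bx_3_6 : chkT (FFe (-41) 313 413 (-124) 1763 (-4359)) (.s 3 (.s 0 .leaf .leaf) .leaf)
    ⟨⟨0, 1, 1⟩, ⟨218, 317, 1024⟩, ⟨0, 148, 1024⟩, ⟨-1, 1, 1⟩, 447, 8, 8, 13, 3⟩ = true := by
  decide +kernel

theorem bx_3_7 : chkT (FFe (-41) 313 444 (-339) 1763 (-4359)) (.s 3 (.s 0 .leaf .leaf) .leaf)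
    ⟨⟨0, 1, 1⟩, ⟨218, 317, 1024⟩, ⟨148, 296, 1024⟩, ⟨-1, 1, 1⟩, 447, 8, 8, 13, 3⟩ = true := by
  decide +kernel

theorem bx_3_8 : chkT (FFe (-41) 313 498 (-530) 1763 (-4359)) (.s 3 (.s 0 .leaf .leaf) .leaf)
    ⟨⟨0, 1, 1⟩, ⟨218, 317, 1024⟩, ⟨296, 444, 1024⟩, ⟨-1, 1, 1⟩, 447, 8, 8, 13, 3⟩ = true := by
  decide +kernel

theorem bx_3_9 : chkT (FFe (-41) 313 565 (-685) 1763 (-4359)) (.s 0 .leaf .leaf)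
    ⟨⟨0, 1, 1⟩, ⟨218, 317, 1024⟩, ⟨444, 591, 1024⟩, ⟨-1, 1, 1⟩, 447, 8, 8, 13, 3⟩ = true := by
  decide +kernel

theorem bx_3_10 : chkT (FFe (-41) 313 570 (-694) 1763 (-4359)) .leaf
    ⟨⟨0, 1, 1⟩, ⟨218, 317, 1024⟩, ⟨591, 739, 1024⟩, ⟨-1, 1, 1⟩, 447, 8, 8, 13, 3⟩ = true := by
  decide +kernel

theorem bx_3_11 : chkT (FFe (-41) 313 415 (-479) 1763 (-4359)) (.s 0 .leaf .leaf)
    ⟨⟨0, 1, 1⟩, ⟨218, 317, 1024⟩, ⟨739, 887, 1024⟩, ⟨-1, 1, 1⟩, 447, 8, 8, 13, 3⟩ = true := by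
  decide +kernel

theorem boxes_3 : ∀ i < 12, ∃ t : T,
    chkT (FFe (P0 3) (P1 3) (Q0 i) (Q1 i) (R0 3) (R1 3)) t (bxx 3 i) = true := by
  intro i hi
  match i, hi with
  | 0, _ => exact ⟨_, bx_3_0⟩
  | 1, _ => exact ⟨_, bx_3_1⟩
  | 2, _ => exact ⟨_, bx_3_2⟩
  | 3, _ => exact ⟨_, bx_3_3⟩
  | 4, _ => exact ⟨_, bx_3_4⟩
  | 5, _ => exact ⟨_, bx_3_5⟩
  | 6, _ => exact ⟨_, bx_3_6⟩
  | 7, _ => exact ⟨_, bx_3_7⟩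
  | 8, _ => exact ⟨_, bx_3_8⟩
  | 9, _ => exact ⟨_, bx_3_9⟩
  | 10, _ => exact ⟨_, bx_3_10⟩
  | 11, _ => exact ⟨_, bx_3_11⟩
  | n + 12, h => omega

end Vale.Agent.P098.D5
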