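import Vale.Agent.Lib.P098.Cert.Bx5_5

/-! # P098, dimension 5: kernel checks of the boxes, `j = 7` -/

namespace Vale.Agent.P098.D5

open Kron

theorem bx_7_0 : chkT (FFe (-295) 841 415 479 611 (-2257)) .leaf
    ⟨⟨0, 1, 1⟩, ⟨656, 780, 1024⟩, ⟨-887, -739, 1024⟩, ⟨-1, 1, 1⟩, 447, 8, 8, 13, 3⟩ = true := by
  decide +kernel

theorem bx_7_1 : chkT (FFe (-295) 841 570 694 611 (-2257)) .leaf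
    ⟨⟨0, 1, 1⟩, ⟨656, 780, 1024⟩, ⟨-739, -591, 1024⟩, ⟨-1, 1, 1⟩, 447, 8, 8, 13, 3⟩ = true := by
  decide +kernel

theorem bx_7_2 : chkT (FFe (-295) 841 565 685 611 (-2257)) .leaf
    ⟨⟨0, 1, 1⟩, ⟨656, 780, 1024⟩, ⟨-591, -444, 1024⟩, ⟨-1, 1, 1⟩, 447, 8, 8, 13, 3⟩ = true := by
  decide +kernel

theorem bx_7_3 : chkT (FFe (-295) 841 498 530 611 (-2257)) .leaf
    ⟨⟨0, 1, 1⟩, ⟨656, 780, 1024⟩, ⟨-444, -296, 1024⟩, ⟨-1, 1, 1⟩, 447, 8, 8, 13, 3⟩ = true := by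
  decide +kernel

theorem bx_7_4 : chkT (FFe (-295) 841 444 339 611 (-2257)) .leaf
    ⟨⟨0, 1, 1⟩, ⟨656, 780, 1024⟩, ⟨-296, -148, 1024⟩, ⟨-1, 1, 1⟩, 447, 8, 8, 13, 3⟩ = true := by
  decide +kernel

theorem bx_7_5 : chkT (FFe (-295) 841 413 124 611 (-2257)) .leaf
    ⟨⟨0, 1, 1⟩, ⟨656, 780, 1024⟩, ⟨-148, 0, 1024⟩, ⟨-1, 1, 1⟩, 447, 8, 8, 13, 3⟩ = true := by
  decide +kernel

theorem bx_7_6 : chkT (FFe (-295) 841 413 (-124) 611 (-2257)) .leaf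
    ⟨⟨0, 1, 1⟩, ⟨656, 780, 1024⟩, ⟨0, 148, 1024⟩, ⟨-1, 1, 1⟩, 447, 8, 8, 13, 3⟩ = true := by
  decide +kernel

theorem bx_7_7 : chkT (FFe (-295) 841 444 (-339) 611 (-2257)) .leaf
    ⟨⟨0, 1, 1⟩, ⟨656, 780, 1024⟩, ⟨148, 296, 1024⟩, ⟨-1, 1, 1⟩, 447, 8, 8, 13, 3⟩ = true := by
  decide +kernel

theorem bx_7_8 : chkT (FFe (-295) 841 498 (-530) 611 (-2257)) .leaf
    ⟨⟨0, 1, 1⟩, ⟨656, 780, 1024⟩, ⟨296, 444, 1024⟩, ⟨-1, 1, 1⟩, 447, 8, 8, 13, 3⟩ = true := by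
  decide +kernel

theorem bx_7_9 : chkT (FFe (-295) 841 565 (-685) 611 (-2257)) .leaf
    ⟨⟨0, 1, 1⟩, ⟨656, 780, 1024⟩, ⟨444, 591, 1024⟩, ⟨-1, 1, 1⟩, 447, 8, 8, 13, 3⟩ = true := by
  decide +kernel

theorem bx_7_10 : chkT (FFe (-295) 841 570 (-694) 611 (-2257)) .leaf
    ⟨⟨0, 1, 1⟩, ⟨656, 780, 1024⟩, ⟨591, 739, 1024⟩, ⟨-1, 1, 1⟩, 447, 8, 8, 13, 3⟩ = true := by
  decide +kernel

theorem bx_7_11 : chkT (FFe (-295) 841 415 (-479) 611 (-2257)) .leaf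
    ⟨⟨0, 1, 1⟩, ⟨656, 780, 1024⟩, ⟨739, 887, 1024⟩, ⟨-1, 1, 1⟩, 447, 8, 8, 13, 3⟩ = true := by
  decide +kernel

theorem boxes_7 : ∀ i < 12, ∃ t : T,
    chkT (FFe (P0 7) (P1 7) (Q0 i) (Q1 i) (R0 7) (R1 7)) t (bxx 7 i) = true := by
  intro i hi
  match i, hi with
  | 0, _ => exact ⟨_, bx_7_0⟩
  | 1, _ => exact ⟨_, bx_7_1⟩
  | 2, _ => exact ⟨_, bx_7_2⟩
  | 3, _ => exact ⟨_, bx_7_3⟩
  | 4, _ => exact ⟨_, bx_7_4⟩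
  | 5, _ => exact ⟨_, bx_7_5⟩
  | 6, _ => exact ⟨_, bx_7_6⟩
  | 7, _ => exact ⟨_, bx_7_7⟩
  | 8, _ => exact ⟨_, bx_7_8⟩
  | 9, _ => exact ⟨_, bx_7_9⟩
  | 10, _ => exact ⟨_, bx_7_10⟩
  | 11, _ => exact ⟨_, bx_7_11⟩
  | n + 12, h => omega

end Vale.Agent.P098.D5
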