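import Vale.Agent.Lib.P098.Cert.Bx5_0
import Vale.Agent.Lib.P098.Cert.Bx5_1
import Vale.Agent.Lib.P098.Cert.Bx5_2
import Vale.Agent.Lib.P098.Cert.Bx5_3
import Vale.Agent.Lib.P098.Cert.Bx5_4
import Vale.Agent.Lib.P098.Cert.Bx5_5
import Vale.Agent.Lib.P098.Cert.Bx5_6
import Vale.Agent.Lib.P098.Cert.Bx5_7
import Vale.Agent.Lib.P098.Cert.Bx5_8
import Vale.Agent.Lib.P098.Cert.Bx5_9
import Vale.Agent.Lib.P098.Cert.Bx5_10
import Vale.Agent.Lib.P098.Cert.Bx5_11
import Vale.Agent.Lib.P098.Cert.SideB5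

/-! # P098, dimension 5: all boxes, and the flat inequality for `K5` -/

namespace Vale.Agent.P098

theorem allBoxes : AllBoxes := by
  intro j hj
  match j, hj with
  | 0, _ => exact D5.boxes_0
  | 1, _ => exact D5.boxes_1
  | 2, _ => exact D5.boxes_2
  | 3, _ => exact D5.boxes_3
  | 4, _ => exact D5.boxes_4
  | 5, _ => exact D5.boxes_5
  | 6, _ => exact D5.boxes_6
  | 7, _ => exact D5.boxes_7
  | 8, _ => exact D5.boxes_8
  | 9, _ => exact D5.boxes_9
  | 10, _ => exact D5.boxes_10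
  | 11, _ => exact D5.boxes_11
  | n + 12, h => omega

theorem k5Flat : K5Flat := K5Flat_of_all' allBoxes

end Vale.Agent.P098
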