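import Vale.Agent.Lib.P098.Cert.Red5

/-!
# P098: interval data for the proof of the scalar inequality for `K5`

`z` runs through 12 intervals, `x` through 12 intervals; on a `z`-interval `ρ` and a tangent `L` of
`(3/5) z²` are linear in `z`, on an `x`-interval the bound of `ε` is linear in `x`.
-/

namespace Vale.Agent.P098

/-- data of a `z`-interval: `lo ≤ 1024 z ≤ hi`, `ρ = (r0 + r1 z)/1000`, `L = (p0 + p1 z)/1000` -/
structure ZD where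
  lo : ℤ
  hi : ℤ
  r0 : ℤ
  r1 : ℤ
  p0 : ℤ
  p1 : ℤ

/-- data of an `x`-interval: `lo ≤ 1024 x ≤ hi`, bound `(q0 + q1 x)/1000` of `|ε|` -/
structure XD where
  lo : ℤ
  hi : ℤ
  q0 : ℤ
  q1 : ℤ

/-- the `z`-intervals -/
def zd : Fin 12 → ZD := ![
  ⟨0, 52, 1396, -1434, -1, 30⟩,
  ⟨52, 129, 1444, -2373, -5, 106⟩,
  ⟨129, 218, 1595, -3567, -18, 203⟩,
  ⟨218, 317, 1763, -4359, -41, 313⟩,
  ⟨317, 424, 1780, -4425, -79, 434⟩,
  ⟨424, 537, 1537, -3856, -133, 563⟩,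
  ⟨537, 656, 1098, -3021, -204, 699⟩,
  ⟨656, 780, 611, -2257, -295, 841⟩,
  ⟨780, 910, 167, -1674, -409, 990⟩,
  ⟨910, 1043, -373, -1065, -546, 1144⟩,
  ⟨1043, 1181, -833, -611, -708, 1303⟩,
  ⟨1181, 1322, -1205, -287, -897, 1467⟩]

/-- the `x`-intervals -/
def xd : Fin 12 → XD := ![
  ⟨-887, -739, 415, 479⟩,
  ⟨-739, -591, 570, 694⟩,
  ⟨-591, -444, 565, 685⟩,
  ⟨-444, -296, 498, 530⟩,
  ⟨-296, -148, 444, 339⟩,
  ⟨-148, 0, 413, 124⟩,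
  ⟨0, 148, 413, -124⟩,
  ⟨148, 296, 444, -339⟩,
  ⟨296, 444, 498, -530⟩,
  ⟨444, 591, 565, -685⟩,
  ⟨591, 739, 570, -694⟩,
  ⟨739, 887, 415, -479⟩]

/-- the scalar inequality on a box -/
def BoxStmt (Z : ZD) (X : XD) : Prop := ∀ σ z x η : ℝ, 0 ≤ σ → σ ≤ 1 → (Z.lo : ℝ) ≤ 1024 * z →
    1024 * z ≤ (Z.hi : ℝ) → (X.lo : ℝ) ≤ 1024 * x → 1024 * x ≤ (X.hi : ℝ) → -1 ≤ η → η ≤ 1 →
    ∀ L t c : ℝ, L = ((Z.p0 : ℝ) + Z.p1 * z) / 1000 → t = L + (1 - L) * σ →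
    c = 20 / 9 * x ^ 3 - x + ((X.q0 : ℝ) + X.q1 * x) / 1000 * η →
    0 ≤ K5.FF 4 (51 / 100) (((Z.r0 : ℝ) + Z.r1 * z) / 1000) (1 - t) z c
      (1 / 2 - 2 * x ^ 2 + 4 * x ^ 4 - 4 / 3 * c * x) x

/-- the choice of `ρ` is admissible -/
def RhoStmt (Z : ZD) : Prop := ∀ s z c : ℝ, 0 < s → 0 ≤ z → s + 3 / 5 * z ^ 2 ≤ 1 →
    (Z.lo : ℝ) ≤ 1024 * z → 1024 * z ≤ (Z.hi : ℝ) →
    ((Z.r0 : ℝ) + Z.r1 * z) / 1000 * K5.G.f s z c ≤ K5.gb (51 / 100) s z c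

/-- the bound of `ε` -/
def EpsStmt (X : XD) : Prop := ∀ x e : ℝ, x ^ 2 ≤ 3 / 4 → 6 * e ^ 2 ≤ (1 - 4 / 3 * x ^ 2) ^ 3 →
    (X.lo : ℝ) ≤ 1024 * x → 1024 * x ≤ (X.hi : ℝ) →
    |e| ≤ ((X.q0 : ℝ) + X.q1 * x) / 1000 ∧ 0 < ((X.q0 : ℝ) + X.q1 * x) / 1000

theorem zd_cover {z : ℝ} (hz : 0 ≤ z) (hz2 : 3 / 5 * z ^ 2 ≤ 1) :
    ∃ j, ((zd j).lo : ℝ) ≤ 1024 * z ∧ 1024 * z ≤ ((zd j).hi : ℝ) := by
  have h1 : 1024 * z ≤ 1322 := by nlinarith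
  by_contra hne
  push Not at hne
  have k0 := hne 0
  have k1 := hne 1
  have k2 := hne 2
  have k3 := hne 3
  have k4 := hne 4
  have k5 := hne 5
  have k6 := hne 6
  have k7 := hne 7
  have k8 := hne 8
  have k9 := hne 9
  have k10 := hne 10
  have k11 := hne 11
  simp only [zd, Matrix.cons_val_zero, Matrix.cons_val_one, Matrix.cons_val] at k0 k1 k2 k3 k4 k5 k6 k7 k8 k9 k10 k11
  push_cast at k0 k1 k2 k3 k4 k5 k6 k7 k8 k9 k10 k11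
  have m0 := k0 (by linarith)
  have m1 := k1 m0.le
  have m2 := k2 m1.le
  have m3 := k3 m2.le
  have m4 := k4 m3.le
  have m5 := k5 m4.le
  have m6 := k6 m5.le
  have m7 := k7 m6.le
  have m8 := k8 m7.le
  have m9 := k9 m8.le
  have m10 := k10 m9.le
  have m11 := k11 m10.le
  linarith

theorem xd_cover {x : ℝ} (hx : x ^ 2 ≤ 3 / 4) :
    ∃ i, ((xd i).lo : ℝ) ≤ 1024 * x ∧ 1024 * x ≤ ((xd i).hi : ℝ) := by
  have h1 : 1024 * x ≤ 887 := by nlinarith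
  have h2 : -887 ≤ 1024 * x := by nlinarith
  by_contra hne
  push Not at hne
  have k0 := hne 0
  have k1 := hne 1
  have k2 := hne 2
  have k3 := hne 3
  have k4 := hne 4
  have k5 := hne 5
  have k6 := hne 6
  have k7 := hne 7
  have k8 := hne 8
  have k9 := hne 9
  have k10 := hne 10
  have k11 := hne 11
  simp only [xd, Matrix.cons_val_zero, Matrix.cons_val_one, Matrix.cons_val] at k0 k1 k2 k3 k4 k5 k6 k7 k8 k9 k10 k11
  push_cast at k0 k1 k2 k3 k4 k5 k6 k7 k8 k9 k10 k11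
  have m0 := k0 (by linarith)
  have m1 := k1 m0.le
  have m2 := k2 m1.le
  have m3 := k3 m2.le
  have m4 := k4 m3.le
  have m5 := k5 m4.le
  have m6 := k6 m5.le
  have m7 := k7 m6.le
  have m8 := k8 m7.le
  have m9 := k9 m8.le
  have m10 := k10 m9.le
  have m11 := k11 m10.le
  linarith

/-- `L` is below `(3/5) z²` -/
theorem zd_tangent (j : Fin 12) (z : ℝ) :
    (((zd j).p0 : ℝ) + (zd j).p1 * z) / 1000 ≤ 3 / 5 * z ^ 2 := by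
  have key : ∀ p q : ℝ, q ^ 2 + 2400 * p ≤ 0 → (p + q * z) / 1000 ≤ 3 / 5 * z ^ 2 := by
    intro p q h
    rw [div_le_iff₀ (by norm_num)]
    nlinarith [sq_nonneg (1200 * z - q)]
  apply key
  fin_cases j <;> simp only [zd] <;> norm_num

theorem K5Scalar_of (hB : ∀ j i, BoxStmt (zd j) (xd i)) (hR : ∀ j, RhoStmt (zd j))
    (hX : ∀ i, EpsStmt (xd i)) : K5Scalar := by
  intro s z x c hs hz hd hx hc
  obtain ⟨j, j1, j2⟩ := zd_cover hz (by linarith)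
  obtain ⟨i, i1, i2⟩ := xd_cover hx
  refine ⟨(((zd j).r0 : ℝ) + (zd j).r1 * z) / 1000, hR j s z c hs hz hd j1 j2, ?_⟩
  obtain ⟨e1, e2⟩ := hX i x (c - 20 / 9 * x ^ 3 + x) hx hc i1 i2
  have hL := zd_tangent j z
  set L := (((zd j).p0 : ℝ) + (zd j).p1 * z) / 1000 with hLd
  set q := (((xd i).q0 : ℝ) + (xd i).q1 * x) / 1000 with hqd
  have hL1 : 0 < 1 - L := by linarith
  have h := hB j i ((1 - s - L) / (1 - L)) z x ((c - 20 / 9 * x ^ 3 + x) / q)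
    (div_nonneg (by linarith) hL1.le) ((div_le_one hL1).2 (by linarith)) j1 j2 i1 i2
    ((le_div_iff₀ e2).2 (by linarith [(abs_le.1 e1).1])) ((div_le_one e2).2 (abs_le.1 e1).2)
    L (1 - s) c hLd (by field_simp; ring)
    (by rw [← hqd]; field_simp; ring)
  rw [show 1 - (1 - s) = s by ring] at h
  exact h

theorem K5Flat_of_boxes (hB : ∀ j i, BoxStmt (zd j) (xd i)) (hR : ∀ j, RhoStmt (zd j))
    (hX : ∀ i, EpsStmt (xd i)) : K5Flat := K5Flat_of (K5Scalar_of hB hR hX)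

end Vale.Agent.P098
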