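import Vale.Agent.Lib.P098.Chk.Kron

/-!
# P098, dimension 5: subdivision data for the flat inequality

`z` lies in `[ZL j, ZL (j+1)] / 1024`, `x` in `[XL i, XL (i+1)] / 1024`;
`ρ_j = (R0 + R1 z) / 1000`, `L_j = (P0 + P1 z) / 1000`, `ℓ_i = (Q0 + Q1 x) / 1000`.
-/

namespace Vale.Agent.P098.D5

open Kron

/-- entry of a list of integers -/
def ent (l : List ℤ) (i : ℕ) : ℤ := l.getD i 0

def ZL : ℕ → ℤ := ent [0, 52, 129, 218, 317, 424, 537, 656, 780, 910, 1043, 1181, 1322]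
def R0 : ℕ → ℤ := ent [1396, 1444, 1595, 1763, 1780, 1537, 1098, 611, 167, -373, -833, -1205]
def R1 : ℕ → ℤ := ent [-1434, -2373, -3567, -4359, -4425, -3856, -3021, -2257, -1674, -1065, -611, -287]
def P0 : ℕ → ℤ := ent [-1, -5, -18, -41, -79, -133, -204, -295, -409, -546, -708, -897]
def P1 : ℕ → ℤ := ent [30, 106, 203, 313, 434, 563, 699, 841, 990, 1144, 1303, 1467]
def XL : ℕ → ℤ := ent [-887, -739, -591, -444, -296, -148, 0, 148, 296, 444, 591, 739, 887]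
def Q0 : ℕ → ℤ := ent [415, 570, 565, 498, 444, 413, 413, 444, 498, 565, 570, 415]
def Q1 : ℕ → ℤ := ent [479, 694, 685, 530, 339, 124, -124, -339, -530, -685, -694, -479]

/-- the box: `σ ∈ [0, 1]`, `z`, `x`, `η ∈ [-1, 1]` -/
def bxx (j i : ℕ) : Bx :=
  ⟨⟨0, 1, 1⟩, ⟨ZL j, ZL (j + 1), 1024⟩, ⟨XL i, XL (i + 1), 1024⟩, ⟨-1, 1, 1⟩, 447, 8, 8, 13, 3⟩

end Vale.Agent.P098.D5
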