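import Mathlib

/-!
# P098: the domain of the eigenvalues for `k = 5`
-/

namespace Vale.Agent.P098

theorem schur_ord {A B C : ℝ} (hC : 0 ≤ C) (h1 : C ≤ B) (h2 : B ≤ A) :
    0 ≤ (A + B + C) ^ 3 - 4 * (A * B + B * C + C * A) * (A + B + C) + 9 * A * B * C := by
  have e : (A + B + C) ^ 3 - 4 * (A * B + B * C + C * A) * (A + B + C) + 9 * A * B * C =
      (A - B) ^ 2 * (A + B - C) + C * ((A - C) * (B - C)) := by ring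
  rw [e]
  have h3 : 0 ≤ A + B - C := by linarith
  have h4 : 0 ≤ (A - C) * (B - C) := mul_nonneg (by linarith) (by linarith)
  positivity

/-- Schur's inequality -/
theorem schur {A B C : ℝ} (hA : 0 ≤ A) (hB : 0 ≤ B) (hC : 0 ≤ C) :
    0 ≤ (A + B + C) ^ 3 - 4 * (A * B + B * C + C * A) * (A + B + C) + 9 * A * B * C := by
  rcases le_total A B with h1 | h1 <;> rcases le_total B C with h2 | h2 <;>
    rcases le_total A C with h3 | h3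
  · have := schur_ord hA h1 h2; linarith
  · have := schur_ord hA h1 h2; linarith
  · have := schur_ord hA h3 h2; linarith
  · have := schur_ord hC h3 h1; linarith
  · have := schur_ord hB h1 h3; linarith
  · have := schur_ord hB h2 h3; linarith
  · have := schur_ord hC h2 h1; linarith
  · have := schur_ord hC h2 h1; linarith

/-- four numbers with sum zero -/
theorem four_zero {a b c d : ℝ} (h : a + b + c + d = 0) :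
    3 * (a ^ 3 + b ^ 3 + c ^ 3 + d ^ 3) ^ 2 ≤ (a ^ 2 + b ^ 2 + c ^ 2 + d ^ 2) ^ 3 ∧
    (a ^ 4 + b ^ 4 + c ^ 4 + d ^ 4) * (a ^ 2 + b ^ 2 + c ^ 2 + d ^ 2) ≤
      (a ^ 2 + b ^ 2 + c ^ 2 + d ^ 2) ^ 3 / 2 + (a ^ 3 + b ^ 3 + c ^ 3 + d ^ 3) ^ 2 / 4 ∧
    (a ^ 2 + b ^ 2 + c ^ 2 + d ^ 2) ^ 3 / 4 + (a ^ 3 + b ^ 3 + c ^ 3 + d ^ 3) ^ 2 ≤
      (a ^ 4 + b ^ 4 + c ^ 4 + d ^ 4) * (a ^ 2 + b ^ 2 + c ^ 2 + d ^ 2) := by
  have hd : d = -a - b - c := by linarith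
  subst hd
  set A : ℝ := (a + b) ^ 2 with hA
  set B : ℝ := (b + c) ^ 2 with hB
  set C : ℝ := (c + a) ^ 2 with hC
  have A0 : 0 ≤ A := sq_nonneg _
  have B0 : 0 ≤ B := sq_nonneg _
  have C0 : 0 ≤ C := sq_nonneg _
  have e2 : a ^ 2 + b ^ 2 + c ^ 2 + (-a - b - c) ^ 2 = A + B + C := by rw [hA, hB, hC]; ring
  have e3 : (a ^ 3 + b ^ 3 + c ^ 3 + (-a - b - c) ^ 3) ^ 2 = 9 * (A * B * C) := by
    rw [hA, hB, hC]; ring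
  have e4 : a ^ 4 + b ^ 4 + c ^ 4 + (-a - b - c) ^ 4 =
      (A + B + C) ^ 2 / 4 + (A * B + B * C + C * A) := by rw [hA, hB, hC]; ring
  rw [e2, e3, e4]
  have hs := schur A0 B0 C0
  have hAB := mul_nonneg A0 B0
  have hBC := mul_nonneg B0 C0
  have hCA := mul_nonneg C0 A0
  have hm : 9 * (A * B * C) ≤ (A * B + B * C + C * A) * (A + B + C) := by
    nlinarith [mul_nonneg A0 (sq_nonneg (B - C)), mul_nonneg B0 (sq_nonneg (C - A)),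
      mul_nonneg C0 (sq_nonneg (A - B))]
  have hn : 3 * (A * B + B * C + C * A) ≤ (A + B + C) ^ 2 := by
    nlinarith [sq_nonneg (A - B), sq_nonneg (B - C), sq_nonneg (C - A)]
  have hS : 0 ≤ A + B + C := by linarith
  refine ⟨?_, ?_, ?_⟩
  · nlinarith [mul_le_mul_of_nonneg_right hn hS]
  · nlinarith
  · nlinarith

/-- five numbers, `x` is one of them -/
theorem five_dom {x a b c d : ℝ} (h1 : x + a + b + c + d = 0)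
    (h2 : x ^ 2 + a ^ 2 + b ^ 2 + c ^ 2 + d ^ 2 = 1) (ε δ w S : ℝ)
    (hS : S = x ^ 3 + a ^ 3 + b ^ 3 + c ^ 3 + d ^ 3)
    (hε : ε = S - 15 / 8 * x ^ 3 + 3 / 4 * x)
    (hδ : δ = x ^ 4 + a ^ 4 + b ^ 4 + c ^ 4 + d ^ 4 - 35 / 64 * x ^ 4 - 3 / 8 * x ^ 2 + x * ε)
    (hw : w = 1 - 5 / 4 * x ^ 2) :
    0 ≤ w ∧ 3 * ε ^ 2 ≤ w ^ 3 ∧ δ * w ≤ w ^ 3 / 2 + ε ^ 2 / 4 ∧ w ^ 3 / 4 + ε ^ 2 ≤ δ * w := by
  have e1 : (a + x / 4) + (b + x / 4) + (c + x / 4) + (d + x / 4) = 0 := by linarith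
  have e2 : (a + x / 4) ^ 2 + (b + x / 4) ^ 2 + (c + x / 4) ^ 2 + (d + x / 4) ^ 2 = w := by
    have : (a + x / 4) ^ 2 + (b + x / 4) ^ 2 + (c + x / 4) ^ 2 + (d + x / 4) ^ 2 =
        (x ^ 2 + a ^ 2 + b ^ 2 + c ^ 2 + d ^ 2) - x ^ 2 + x / 2 * (x + a + b + c + d) -
        x ^ 2 / 2 + x ^ 2 / 4 := by ring
    rw [this, h1, h2, hw]; ring
  have e3 : (a + x / 4) ^ 3 + (b + x / 4) ^ 3 + (c + x / 4) ^ 3 + (d + x / 4) ^ 3 = ε := by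
    have : (a + x / 4) ^ 3 + (b + x / 4) ^ 3 + (c + x / 4) ^ 3 + (d + x / 4) ^ 3 =
        (x ^ 3 + a ^ 3 + b ^ 3 + c ^ 3 + d ^ 3) - x ^ 3 + 3 / 4 * x * ((x ^ 2 + a ^ 2 + b ^ 2 +
          c ^ 2 + d ^ 2) - x ^ 2) + 3 / 16 * x ^ 2 * ((x + a + b + c + d) - x) + x ^ 3 / 16 := by
      ring
    rw [this, h1, h2, hε, hS]; ring
  have e4 : (a + x / 4) ^ 4 + (b + x / 4) ^ 4 + (c + x / 4) ^ 4 + (d + x / 4) ^ 4 = δ := by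
    have : (a + x / 4) ^ 4 + (b + x / 4) ^ 4 + (c + x / 4) ^ 4 + (d + x / 4) ^ 4 =
        (x ^ 4 + a ^ 4 + b ^ 4 + c ^ 4 + d ^ 4) - x ^ 4 + x * ((x ^ 3 + a ^ 3 + b ^ 3 +
          c ^ 3 + d ^ 3) - x ^ 3) + 3 / 8 * x ^ 2 * ((x ^ 2 + a ^ 2 + b ^ 2 +
          c ^ 2 + d ^ 2) - x ^ 2) + 1 / 16 * x ^ 3 * ((x + a + b + c + d) - x) +
          x ^ 4 / 64 := by
      ring
    rw [this, h1, h2, hδ, hε, hS]; ring
  obtain ⟨k1, k2, k3⟩ := four_zero e1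
  rw [e2, e3] at k1
  rw [e2, e3, e4] at k2 k3
  refine ⟨?_, k1, k2, k3⟩
  rw [← e2]; positivity

/-- **the domain for `k = 5`** -/
theorem dom5 {l : Fin 5 → ℝ} (h1 : ∑ i, l i = 0) (h2 : ∑ i, l i ^ 2 = 1) (i : Fin 5)
    (x ε δ w : ℝ) (hx : x = l i) (hε : ε = (∑ j, l j ^ 3) - 15 / 8 * x ^ 3 + 3 / 4 * x)
    (hδ : δ = (∑ j, l j ^ 4) - 35 / 64 * x ^ 4 - 3 / 8 * x ^ 2 + x * ε)
    (hw : w = 1 - 5 / 4 * x ^ 2) :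
    0 ≤ w ∧ 3 * ε ^ 2 ≤ w ^ 3 ∧ δ * w ≤ w ^ 3 / 2 + ε ^ 2 / 4 ∧ w ^ 3 / 4 + ε ^ 2 ≤ δ * w := by
  simp only [Fin.sum_univ_five] at h1 h2 hε hδ
  fin_cases i
  · exact five_dom (x := x) (a := l 1) (b := l 2) (c := l 3) (d := l 4)
      (by rw [hx]; exact h1) (by rw [hx]; exact h2) ε δ w _ rfl
      (by rw [hε, hx]; rfl) (by rw [hδ, hx]; rfl) hw
  · exact five_dom (x := x) (a := l 0) (b := l 2) (c := l 3) (d := l 4)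
      (by rw [hx]; change l 1 + l 0 + l 2 + l 3 + l 4 = 0; linarith)
      (by rw [hx]; change l 1 ^ 2 + l 0 ^ 2 + l 2 ^ 2 + l 3 ^ 2 + l 4 ^ 2 = 1; linarith)
      ε δ w _ rfl
      (by
        rw [hε, hx]
        change _ = l 1 ^ 3 + l 0 ^ 3 + l 2 ^ 3 + l 3 ^ 3 + l 4 ^ 3 - 15 / 8 * l 1 ^ 3 + 3 / 4 * l 1
        simp only [Fin.mk_one]; ring)
      (by
        rw [hδ, hx]
        change _ = l 1 ^ 4 + l 0 ^ 4 + l 2 ^ 4 + l 3 ^ 4 + l 4 ^ 4 - 35 / 64 * l 1 ^ 4 -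
          3 / 8 * l 1 ^ 2 + l 1 * ε
        simp only [Fin.mk_one]; ring) hw
  · exact five_dom (x := x) (a := l 0) (b := l 1) (c := l 3) (d := l 4)
      (by rw [hx]; change l 2 + l 0 + l 1 + l 3 + l 4 = 0; linarith)
      (by rw [hx]; change l 2 ^ 2 + l 0 ^ 2 + l 1 ^ 2 + l 3 ^ 2 + l 4 ^ 2 = 1; linarith)
      ε δ w _ rfl
      (by
        rw [hε, hx]
        change _ = l 2 ^ 3 + l 0 ^ 3 + l 1 ^ 3 + l 3 ^ 3 + l 4 ^ 3 - 15 / 8 * l 2 ^ 3 + 3 / 4 * l 2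
        change l 0 ^ 3 + l 1 ^ 3 + l 2 ^ 3 + l 3 ^ 3 + l 4 ^ 3 - 15 / 8 * l 2 ^ 3 + 3 / 4 * l 2 = _
        ring)
      (by
        rw [hδ, hx]
        change l 0 ^ 4 + l 1 ^ 4 + l 2 ^ 4 + l 3 ^ 4 + l 4 ^ 4 - 35 / 64 * l 2 ^ 4 -
          3 / 8 * l 2 ^ 2 + l 2 * ε = l 2 ^ 4 + l 0 ^ 4 + l 1 ^ 4 + l 3 ^ 4 + l 4 ^ 4 -
          35 / 64 * l 2 ^ 4 - 3 / 8 * l 2 ^ 2 + l 2 * ε
        ring) hw
  · exact five_dom (x := x) (a := l 0) (b := l 1) (c := l 2) (d := l 4)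
      (by rw [hx]; change l 3 + l 0 + l 1 + l 2 + l 4 = 0; linarith)
      (by rw [hx]; change l 3 ^ 2 + l 0 ^ 2 + l 1 ^ 2 + l 2 ^ 2 + l 4 ^ 2 = 1; linarith)
      ε δ w _ rfl
      (by
        rw [hε, hx]
        change l 0 ^ 3 + l 1 ^ 3 + l 2 ^ 3 + l 3 ^ 3 + l 4 ^ 3 - 15 / 8 * l 3 ^ 3 + 3 / 4 * l 3 =
          l 3 ^ 3 + l 0 ^ 3 + l 1 ^ 3 + l 2 ^ 3 + l 4 ^ 3 - 15 / 8 * l 3 ^ 3 + 3 / 4 * l 3
        ring)
      (by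
        rw [hδ, hx]
        change l 0 ^ 4 + l 1 ^ 4 + l 2 ^ 4 + l 3 ^ 4 + l 4 ^ 4 - 35 / 64 * l 3 ^ 4 -
          3 / 8 * l 3 ^ 2 + l 3 * ε = l 3 ^ 4 + l 0 ^ 4 + l 1 ^ 4 + l 2 ^ 4 + l 4 ^ 4 -
          35 / 64 * l 3 ^ 4 - 3 / 8 * l 3 ^ 2 + l 3 * ε
        ring) hw
  · exact five_dom (x := x) (a := l 0) (b := l 1) (c := l 2) (d := l 3)
      (by rw [hx]; change l 4 + l 0 + l 1 + l 2 + l 3 = 0; linarith)
      (by rw [hx]; change l 4 ^ 2 + l 0 ^ 2 + l 1 ^ 2 + l 2 ^ 2 + l 3 ^ 2 = 1; linarith)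
      ε δ w _ rfl
      (by
        rw [hε, hx]
        change l 0 ^ 3 + l 1 ^ 3 + l 2 ^ 3 + l 3 ^ 3 + l 4 ^ 3 - 15 / 8 * l 4 ^ 3 + 3 / 4 * l 4 =
          l 4 ^ 3 + l 0 ^ 3 + l 1 ^ 3 + l 2 ^ 3 + l 3 ^ 3 - 15 / 8 * l 4 ^ 3 + 3 / 4 * l 4
        ring)
      (by
        rw [hδ, hx]
        change l 0 ^ 4 + l 1 ^ 4 + l 2 ^ 4 + l 3 ^ 4 + l 4 ^ 4 - 35 / 64 * l 4 ^ 4 -
          3 / 8 * l 4 ^ 2 + l 4 * ε = l 4 ^ 4 + l 0 ^ 4 + l 1 ^ 4 + l 2 ^ 4 + l 3 ^ 4 -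
          35 / 64 * l 4 ^ 4 - 3 / 8 * l 4 ^ 2 + l 4 * ε
        ring) hw

/-- the sum of the cubes -/
theorem cube5_le {l : Fin 5 → ℝ} (h1 : ∑ i, l i = 0) (h2 : ∑ i, l i ^ 2 = 1) :
    ∑ j, l j ^ 3 ≤ 3 / Real.sqrt 20 := by
  set r := 1 / Real.sqrt 20 with hr
  have hr0 : 0 < r := by positivity
  have hr2 : r ^ 2 = 1 / 20 := by
    rw [hr, div_pow, Real.sq_sqrt (by norm_num)]; norm_num
  have hx : ∀ i, l i ≤ 4 * r := by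
    intro i
    have h := (dom5 h1 h2 i (l i) _ _ _ rfl rfl rfl rfl).1
    by_contra hne
    push Not at hne
    nlinarith
  have hk : ∀ i, (l i - 4 * r) * (l i + r) ^ 2 ≤ 0 := fun i =>
    mul_nonpos_of_nonpos_of_nonneg (by linarith [hx i]) (sq_nonneg _)
  have h := add_le_add (add_le_add (add_le_add (hk 0) (hk 1)) (add_le_add (hk 2) (hk 3))) (hk 4)
  rw [show 3 / Real.sqrt 20 = 3 * r by rw [hr]; ring]
  simp only [Fin.sum_univ_five] at h1 h2 ⊢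
  have e : ∀ y : ℝ, (y - 4 * r) * (y + r) ^ 2 = y ^ 3 - 2 * r * y ^ 2 - 7 * r ^ 2 * y -
      4 * (r ^ 2 * r) := fun y => by ring
  rw [e, e, e, e, e, hr2] at h
  nlinarith [h]

theorem cube5_sq {l : Fin 5 → ℝ} (h1 : ∑ i, l i = 0) (h2 : ∑ i, l i ^ 2 = 1) :
    20 * (∑ j, l j ^ 3) ^ 2 ≤ 9 := by
  have ha := cube5_le h1 h2
  have hb := cube5_le (l := fun i => -l i) (by simp [h1]) (by simp [h2])
  have e : ∑ j, (-l j) ^ 3 = -∑ j, l j ^ 3 := by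
    rw [← Finset.sum_neg_distrib]
    exact Finset.sum_congr rfl fun j _ => by ring
  rw [e] at hb
  have h3 : (3 / Real.sqrt 20) ^ 2 = 9 / 20 := by
    rw [div_pow, Real.sq_sqrt (by norm_num : (0 : ℝ) ≤ 20)]
    norm_num
  have : (∑ j, l j ^ 3) ^ 2 ≤ (3 / Real.sqrt 20) ^ 2 := by
    apply sq_le_sq'
    · linarith
    · exact ha
  rw [h3] at this
  linarith

end Vale.Agent.P098
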