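import Vale.Agent.Lib.P098.Cert.Asm5
import Vale.Agent.Lib.P098.Var.Final

/-!
# P098: minimizing cones in dimension five are flat, given the flat inequality for `K5`
-/

namespace Vale.Agent.P098

theorem flat5_of {u w : Ed 5 → ℝ} {U : Set (Ed 5)} (hF : K5Flat) (h : Cone0 u w U)
    (hm : LipMin u) :
    (∀ x, u x = 0) ∨ ∃ e : Ed 5, ‖e‖ = 1 ∧ ∀ x, u x = max (inner ℝ e x) 0 := by
  have hG := K5_good.toCS (51 / 100)
  exact flat_of_min (by norm_num) h hm (K5_certi hF) hG.1 hG.2 (by norm_num) (by norm_num)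
    (by norm_num)

end Vale.Agent.P098
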