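import Vale.Agent.Lib.P098.Cert.K5

/-!
# P098: coefficient functions with the corner variable `y = t / (t + z + ε)`, `t = 1 - s`
-/

open scoped ContDiff

namespace Vale.Agent.P098

/-! ## general smooth functions -/

/-- a smooth function with its derivatives -/
noncomputable def KF.ofFun (f : ℝ → ℝ → ℝ → ℝ) : KF where
  f := f
  fs := fun s z c => deriv (fun t => f t z c) s
  fz := fun s z c => deriv (fun t => f s t c) z
  fc := fun s z c => deriv (fun t => f s z t) c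

theorem KF.ofFun_good {f : ℝ → ℝ → ℝ → ℝ}
    (hf : ContDiff ℝ ∞ (fun w : Fin 3 → ℝ => f (w 0) (w 1) (w 2))) : (KF.ofFun f).Good where
  smooth := hf
  hs := by
    intro s z c
    have h : ContDiff ℝ ∞ (fun t : ℝ => (![t, z, c] : Fin 3 → ℝ)) := by
      rw [contDiff_pi]
      intro i
      fin_cases i
      · exact contDiff_id
      · exact contDiff_const
      · exact contDiff_const
    exact ((hf.comp h).differentiable (by simp) s).hasDerivAt
  hz := by
    intro s z c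
    have h : ContDiff ℝ ∞ (fun t : ℝ => (![s, t, c] : Fin 3 → ℝ)) := by
      rw [contDiff_pi]
      intro i
      fin_cases i
      · exact contDiff_const
      · exact contDiff_id
      · exact contDiff_const
    exact ((hf.comp h).differentiable (by simp) z).hasDerivAt
  hc := by
    intro s z c
    have h : ContDiff ℝ ∞ (fun t : ℝ => (![s, z, t] : Fin 3 → ℝ)) := by
      rw [contDiff_pi]
      intro i
      fin_cases i
      · exact contDiff_const
      · exact contDiff_const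
      · exact contDiff_id
    exact ((hf.comp h).differentiable (by simp) c).hasDerivAt

/-! ## the cutoff of `1 / (r + ε)` -/

/-- a smooth function which is `1/(r+ε)` for `r ≥ -ε/2` -/
noncomputable def psi (ε r : ℝ) : ℝ := Real.smoothTransition (4 * r / ε + 3) / (r + ε)

theorem psi_eq {ε r : ℝ} (hε : 0 < ε) (hr : -(ε / 2) ≤ r) : psi ε r = 1 / (r + ε) := by
  unfold psi
  rw [Real.smoothTransition.one_of_one_le]
  have : -2 ≤ 4 * r / ε := by
    rw [le_div_iff₀ hε]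
    linarith
  linarith

theorem psi_smooth {ε : ℝ} (hε : 0 < ε) : ContDiff ℝ ∞ (psi ε) := by
  rw [contDiff_iff_contDiffAt]
  intro r
  rcases lt_or_ge (-ε) r with h | h
  · have h1 : ContDiffAt ℝ ∞ (fun r : ℝ => Real.smoothTransition (4 * r / ε + 3)) r := by
      have h2 : ContDiff ℝ ∞ Real.smoothTransition := Real.smoothTransition.contDiff
      have h3 : ContDiff ℝ ∞ (fun r : ℝ => 4 * r / ε + 3) := by fun_prop
      exact (h2.comp h3).contDiffAt
    have h4 : ContDiffAt ℝ ∞ (fun r : ℝ => r + ε) r := by fun_prop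
    exact h1.div h4 (by linarith)
  · have h1 : psi ε =ᶠ[nhds r] fun _ => 0 := by
      have h2 : ∀ᶠ x in nhds r, x < -(3 / 4) * ε := by
        apply Iio_mem_nhds
        linarith
      filter_upwards [h2] with x hx
      unfold psi
      rw [Real.smoothTransition.zero_of_nonpos, zero_div]
      have : 4 * x / ε ≤ -3 := by
        rw [div_le_iff₀ hε]
        linarith
      linarith
    exact contDiffAt_const.congr_of_eventuallyEq h1

/-! ## the corner variable -/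

/-- the coefficient function
`(Σ_{j ≤ 2} y^j (cub p_j t z + c qua q_j t z)) / M`, `t = 1 - s`, `y = t psi(t+z)` -/
noncomputable def fY (ε M : ℝ) (p0 p1 p2 : Fin 10 → ℝ) (q0 q1 q2 : Fin 6 → ℝ) (s z c : ℝ) : ℝ :=
  ((cub p0 (1 - s) z + c * qua q0 (1 - s) z) +
    ((1 - s) * psi ε (1 - s + z)) * (cub p1 (1 - s) z + c * qua q1 (1 - s) z) +
    ((1 - s) * psi ε (1 - s + z)) ^ 2 * (cub p2 (1 - s) z + c * qua q2 (1 - s) z)) / M

/-- the coefficient function as a `KF` -/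
noncomputable def mkY (ε M : ℝ) (p0 p1 p2 : Fin 10 → ℝ) (q0 q1 q2 : Fin 6 → ℝ) : KF :=
  KF.ofFun (fY ε M p0 p1 p2 q0 q1 q2)

theorem mkY_good {ε : ℝ} (hε : 0 < ε) (M : ℝ) (p0 p1 p2 : Fin 10 → ℝ) (q0 q1 q2 : Fin 6 → ℝ) :
    (mkY ε M p0 p1 p2 q0 q1 q2).Good := by
  apply KF.ofFun_good
  have h0 : ContDiff ℝ ∞ (fun w : Fin 3 → ℝ => 1 - w 0) :=
    contDiff_const.sub (contDiff_apply ℝ ℝ (0 : Fin 3))
  have h1 : ContDiff ℝ ∞ (fun w : Fin 3 → ℝ => w 1) := contDiff_apply ℝ ℝ (1 : Fin 3)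
  have h2 : ContDiff ℝ ∞ (fun w : Fin 3 → ℝ => w 2) := contDiff_apply ℝ ℝ (2 : Fin 3)
  have h3 : ContDiff ℝ ∞ (fun w : Fin 3 → ℝ => psi ε (1 - w 0 + w 1)) :=
    (psi_smooth hε).comp (h0.add h1)
  unfold fY cub qua
  fun_prop

/-! ## values on the domain -/

/-- value of a coefficient function at `t + z ≥ 0` -/
noncomputable def vY (ε M : ℝ) (p0 p1 p2 : Fin 10 → ℝ) (q0 q1 q2 : Fin 6 → ℝ) (t z c : ℝ) : ℝ :=
  ((cub p0 t z + c * qua q0 t z) + (t / (t + z + ε)) * (cub p1 t z + c * qua q1 t z) +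
    (t / (t + z + ε)) ^ 2 * (cub p2 t z + c * qua q2 t z)) / M

/-- `t`-derivative -/
noncomputable def vYt (ε M : ℝ) (p0 p1 p2 : Fin 10 → ℝ) (q0 q1 q2 : Fin 6 → ℝ) (t z c : ℝ) :
    ℝ :=
  ((cubt p0 t z + c * quat q0 t z) + (t / (t + z + ε)) * (cubt p1 t z + c * quat q1 t z) +
    (1 - t / (t + z + ε)) / (t + z + ε) * (cub p1 t z + c * qua q1 t z) +
    (t / (t + z + ε)) ^ 2 * (cubt p2 t z + c * quat q2 t z) +
    2 * (t / (t + z + ε)) * ((1 - t / (t + z + ε)) / (t + z + ε)) *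
      (cub p2 t z + c * qua q2 t z)) / M

/-- `z`-derivative -/
noncomputable def vYz (ε M : ℝ) (p0 p1 p2 : Fin 10 → ℝ) (q0 q1 q2 : Fin 6 → ℝ) (t z c : ℝ) :
    ℝ :=
  ((cubz p0 t z + c * quaz q0 t z) + (t / (t + z + ε)) * (cubz p1 t z + c * quaz q1 t z) -
    t / (t + z + ε) / (t + z + ε) * (cub p1 t z + c * qua q1 t z) +
    (t / (t + z + ε)) ^ 2 * (cubz p2 t z + c * quaz q2 t z) -
    2 * (t / (t + z + ε)) * (t / (t + z + ε) / (t + z + ε)) *
      (cub p2 t z + c * qua q2 t z)) / M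

/-- `c`-derivative -/
noncomputable def vYc (ε M : ℝ) (q0 q1 q2 : Fin 6 → ℝ) (t z : ℝ) : ℝ :=
  (qua q0 t z + (t / (t + z + ε)) * qua q1 t z + (t / (t + z + ε)) ^ 2 * qua q2 t z) / M

variable {ε M : ℝ} {p0 p1 p2 : Fin 10 → ℝ} {q0 q1 q2 : Fin 6 → ℝ} {s z c : ℝ}

theorem mkY_f (hε : 0 < ε) (h : 0 ≤ 1 - s + z) :
    (mkY ε M p0 p1 p2 q0 q1 q2).f s z c = vY ε M p0 p1 p2 q0 q1 q2 (1 - s) z c := by
  show fY ε M p0 p1 p2 q0 q1 q2 s z c = _
  unfold fY vY
  rw [psi_eq hε (by linarith)]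
  ring

theorem mkY_fc (hε : 0 < ε) (h : 0 ≤ 1 - s + z) :
    (mkY ε M p0 p1 p2 q0 q1 q2).fc s z c = vYc ε M q0 q1 q2 (1 - s) z := by
  have hg := (mkY_good hε M p0 p1 p2 q0 q1 q2).hc s z c
  refine hg.unique ?_
  have h1 := hasDerivAt_id c
  have h2 := ((((h1.mul_const (qua q0 (1 - s) z)).const_add (cub p0 (1 - s) z)).add
    (((h1.mul_const (qua q1 (1 - s) z)).const_add (cub p1 (1 - s) z)).const_mul
      ((1 - s) * psi ε (1 - s + z)))).add
    (((h1.mul_const (qua q2 (1 - s) z)).const_add (cub p2 (1 - s) z)).const_mul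
      (((1 - s) * psi ε (1 - s + z)) ^ 2))).div_const M
  refine h2.congr_deriv ?_
  unfold vYc
  rw [psi_eq hε (by linarith)]
  ring

theorem hasDerivAt_yt {t z : ℝ} (h : t + z + ε ≠ 0) :
    HasDerivAt (fun t : ℝ => t / (t + z + ε)) ((1 - t / (t + z + ε)) / (t + z + ε)) t := by
  have h1 : HasDerivAt (fun t : ℝ => t + z + ε) 1 t := by
    simpa using ((hasDerivAt_id t).add_const z).add_const ε
  have h2 := (hasDerivAt_id t).div h1 h
  refine h2.congr_deriv ?_
  simp only [id]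
  field_simp

theorem hasDerivAt_yz {t z : ℝ} (h : t + z + ε ≠ 0) :
    HasDerivAt (fun z : ℝ => t / (t + z + ε)) (-(t / (t + z + ε) / (t + z + ε))) z := by
  have h1 : HasDerivAt (fun z : ℝ => t + z + ε) 1 z := by
    simpa using ((hasDerivAt_id z).const_add t).add_const ε
  have h2 := (hasDerivAt_const z t).div h1 h
  refine h2.congr_deriv ?_
  field_simp
  ring

theorem mkY_fs (hε : 0 < ε) (h : 0 ≤ 1 - s + z) :
    (mkY ε M p0 p1 p2 q0 q1 q2).fs s z c = -vYt ε M p0 p1 p2 q0 q1 q2 (1 - s) z c := by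
  have hg := (mkY_good hε M p0 p1 p2 q0 q1 q2).hs s z c
  refine hg.unique ?_
  have hne : (1 - s) + z + ε ≠ 0 := by linarith
  have hv : HasDerivAt (fun t : ℝ => vY ε M p0 p1 p2 q0 q1 q2 t z c)
      (vYt ε M p0 p1 p2 q0 q1 q2 (1 - s) z c) (1 - s) := by
    have hy := hasDerivAt_yt (ε := ε) (t := 1 - s) (z := z) hne
    have a0 := (hasDerivAt_cub_t p0 (1 - s) z).add ((hasDerivAt_qua_t q0 (1 - s) z).const_mul c)
    have a1 := (hasDerivAt_cub_t p1 (1 - s) z).add ((hasDerivAt_qua_t q1 (1 - s) z).const_mul c)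
    have a2 := (hasDerivAt_cub_t p2 (1 - s) z).add ((hasDerivAt_qua_t q2 (1 - s) z).const_mul c)
    have h3 := ((a0.add (hy.mul a1)).add ((hy.pow 2).mul a2)).div_const M
    refine h3.congr_deriv ?_
    unfold vYt
    simp only [Pi.add_apply, Pi.pow_apply, Nat.cast_ofNat]
    ring
  have h1 : HasDerivAt (fun s : ℝ => 1 - s) (-1) s := by
    simpa using (hasDerivAt_id s).const_sub 1
  have h2 := hv.comp s h1
  have h4 : (fun t => (mkY ε M p0 p1 p2 q0 q1 q2).f t z c) =ᶠ[nhds s]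
      (fun t : ℝ => vY ε M p0 p1 p2 q0 q1 q2 t z c) ∘ (fun s : ℝ => 1 - s) := by
    have h5 : ∀ᶠ x in nhds s, x < s + ε / 2 := Iio_mem_nhds (by linarith)
    filter_upwards [h5] with x hx
    show fY ε M p0 p1 p2 q0 q1 q2 x z c = vY ε M p0 p1 p2 q0 q1 q2 (1 - x) z c
    unfold fY vY
    rw [psi_eq hε (by linarith)]
    ring
  refine (h2.congr_of_eventuallyEq h4).congr_deriv ?_
  ring

theorem mkY_fz (hε : 0 < ε) (h : 0 ≤ 1 - s + z) :
    (mkY ε M p0 p1 p2 q0 q1 q2).fz s z c = vYz ε M p0 p1 p2 q0 q1 q2 (1 - s) z c := by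
  have hg := (mkY_good hε M p0 p1 p2 q0 q1 q2).hz s z c
  refine hg.unique ?_
  have hne : (1 - s) + z + ε ≠ 0 := by linarith
  have hv : HasDerivAt (fun z : ℝ => vY ε M p0 p1 p2 q0 q1 q2 (1 - s) z c)
      (vYz ε M p0 p1 p2 q0 q1 q2 (1 - s) z c) z := by
    have hy := hasDerivAt_yz (ε := ε) (t := 1 - s) (z := z) hne
    have a0 := (hasDerivAt_cub_z p0 (1 - s) z).add ((hasDerivAt_qua_z q0 (1 - s) z).const_mul c)
    have a1 := (hasDerivAt_cub_z p1 (1 - s) z).add ((hasDerivAt_qua_z q1 (1 - s) z).const_mul c)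
    have a2 := (hasDerivAt_cub_z p2 (1 - s) z).add ((hasDerivAt_qua_z q2 (1 - s) z).const_mul c)
    have h3 := ((a0.add (hy.mul a1)).add ((hy.pow 2).mul a2)).div_const M
    refine h3.congr_deriv ?_
    unfold vYz
    simp only [Pi.add_apply, Pi.pow_apply, Nat.cast_ofNat]
    ring
  have h4 : (fun t => (mkY ε M p0 p1 p2 q0 q1 q2).f s t c) =ᶠ[nhds z]
      (fun z : ℝ => vY ε M p0 p1 p2 q0 q1 q2 (1 - s) z c) := by
    have h5 : ∀ᶠ x in nhds z, z - ε / 2 < x := Ioi_mem_nhds (by linarith)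
    filter_upwards [h5] with x hx
    show fY ε M p0 p1 p2 q0 q1 q2 s x c = vY ε M p0 p1 p2 q0 q1 q2 (1 - s) x c
    unfold fY vY
    rw [psi_eq hε (by linarith)]
    ring
  exact hv.congr_of_eventuallyEq h4

end Vale.Agent.P098
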