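import Vale.Agent.Lib.P098.Cert.Asm5
import Vale.Agent.Lib.P098.Bld.Elim

/-!
# P098: reduction of the flat inequality for `K5` to one scalar inequality
-/

namespace Vale.Agent.P098

/-- `1000/500` etc: a lower bound for `G` -/
theorem K5_G_lo {s z : ℝ} (c : ℝ) (hs : 0 < s) (hz : 0 ≤ z) (hd : s + 3 / 5 * z ^ 2 ≤ 1) :
    0.565 ≤ K5.G.f s z c := by
  show 0.565 ≤ (cub d5Gp (1 - s) z + _ * qua d5Gq (1 - s) z) / 500
  rw [cub_G, qua_G, mul_zero, add_zero]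
  have ht0 : 0 ≤ 1 - s := by nlinarith [sq_nonneg z]
  have ht1 : 1 - s ≤ 1 := by linarith
  generalize 1 - s = t at ht0 ht1
  have h1 : 0 ≤ 145 * z + 102 * z ^ 2 + 2207 * z ^ 3 + 17 * (t * z) + 712 * (t * z ^ 2) +
      82 * (t ^ 2 * z) := by positivity
  have h2 : 282.5 ≤ 296 + 144 * t - 461 * t ^ 2 + 331 * t ^ 3 := by
    have h3 : 0 ≤ (t + 0.0672) * (t - 0.73) ^ 2 := by positivity
    nlinarith [h3, ht0, ht1]
  rw [le_div_iff₀ (by norm_num)]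
  linarith

/-- `z G_z ≥ 0` -/
theorem K5_zGz {s z : ℝ} (c : ℝ) (hs : 0 < s) (hz : 0 ≤ z) (hd : s + 3 / 5 * z ^ 2 ≤ 1) :
    0 ≤ z * K5.G.fz s z c := by
  apply mul_nonneg hz
  show 0 ≤ (cubz d5Gp (1 - s) z + _ * quaz d5Gq (1 - s) z) / 500
  rw [cubz_G, quaz_G, mul_zero, add_zero]
  have ht0 : 0 ≤ 1 - s := by nlinarith [sq_nonneg z]
  generalize 1 - s = t at ht0
  positivity

theorem K5_Gc (s z c : ℝ) : K5.G.fc s z c = 0 := by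
  show qua d5Gq (1 - s) z / 500 = 0
  rw [qua_G, zero_div]

theorem K5_gb_val (s z c : ℝ) : K5.gb (51 / 100) s z c = 0.2601 + 0.98 * K5.G.f s z c -
    z * K5.G.fz s z c := by
  unfold KCert.gb KCert.cXX
  rw [K5_Gc]
  ring

theorem K5_D1 {s z x : ℝ} (c : ℝ) (hs : 0 < s) (hz : 0 ≤ z) (hd : s + 3 / 5 * z ^ 2 ≤ 1)
    (hx : x ^ 2 ≤ 3 / 4) : 0 < K5.G.f s z c - K5.gb (51 / 100) s z c * Kx 4 x := by
  have hG := K5_G_lo c hs hz hd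
  have hGz := K5_zGz c hs hz hd
  rw [K5_gb_val]
  have hK0 := Kx_pos 4 x
  have hK1 : Kx 4 x ≤ 2 / 3 := by
    unfold Kx
    norm_num
    linarith
  generalize Kx 4 x = q at hK0 hK1
  generalize K5.G.f s z c = g at hG
  generalize z * K5.G.fz s z c = h at hGz
  rcases le_or_gt (0.2601 + 0.98 * g - h) 0 with h1 | h1
  · have := mul_nonpos_of_nonpos_of_nonneg h1 hK0.le
    linarith
  · have := mul_le_mul_of_nonneg_left hK1 h1.le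
    linarith

/-- the scalar inequality -/
def K5Scalar : Prop := ∀ s z x c : ℝ, 0 < s → 0 ≤ z → s + 3 / 5 * z ^ 2 ≤ 1 → x ^ 2 ≤ 3 / 4 →
    6 * (c - 20 / 9 * x ^ 3 + x) ^ 2 ≤ (1 - 4 / 3 * x ^ 2) ^ 3 →
    ∃ ρ : ℝ, ρ * K5.G.f s z c ≤ K5.gb (51 / 100) s z c ∧
      0 ≤ K5.FF 4 (51 / 100) ρ s z c (1 / 2 - 2 * x ^ 2 + 4 * x ^ 4 - 4 / 3 * c * x) x

theorem K5Flat_of (h : K5Scalar) : K5Flat := by
  intro l h1 h2 s z hs hz hd i t ht y r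
  obtain ⟨hx, hc, hD⟩ := dom4 h1 h2 i
  obtain ⟨ρ, hρ, hF⟩ := h s z (l i) (∑ j, l j ^ 3) hs hz hd hx hc
  rw [← hD] at hF
  exact K5.flat_of_elim (ρ := ρ) l h1 h2 i hs rfl rfl rfl rfl (K5_Gc _ _ _)
    (lt_of_lt_of_le (by norm_num) (K5_G_lo _ hs hz hd)) (K5_D1 _ hs hz hd hx) hρ hF t ht y r

end Vale.Agent.P098
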