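import Vale.Agent.Lib.P098.Cert.Cov5
import Vale.Agent.Lib.P098.Cert.Data5
import Vale.Agent.Lib.P098.Cert.FFe
import Vale.Agent.Lib.P098.Chk.Tree

/-!
# P098: from the kernel checks to the box statements
-/

namespace Vale.Agent.P098

theorem Lf_eq (p q : ℤ) (z : ℝ) : Lf p q z = ((p : ℝ) + q * z) / 1000 := by
  unfold Lf
  ring

theorem zd_eq (j : Fin 12) : zd j = ⟨D5.ZL j, D5.ZL (j + 1), D5.R0 j, D5.R1 j, D5.P0 j,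
    D5.P1 j⟩ := by
  fin_cases j <;> rfl

theorem xd_eq (i : Fin 12) : xd i = ⟨D5.XL i, D5.XL (i + 1), D5.Q0 i, D5.Q1 i⟩ := by
  fin_cases i <;> rfl

/-- a kernel check gives the inequality on the box -/
theorem box_of_chk (Z : ZD) (X : XD) (K m0 m1 m2 m3 : ℕ) (t : Kron.T)
    (h : Kron.chkT (FFe Z.p0 Z.p1 X.q0 X.q1 Z.r0 Z.r1) t ⟨⟨0, 1, 1⟩, ⟨Z.lo, Z.hi, 1024⟩,
      ⟨X.lo, X.hi, 1024⟩, ⟨-1, 1, 1⟩, K, m0, m1, m2, m3⟩ = true) : BoxStmt Z X := by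
  intro σ z x η hσ0 hσ1 hz0 hz1 hx0 hx1 hη0 hη1 L t' c hL ht hc
  have hs := Kron.chkT_sound _ t _
    ⟨by norm_num, by norm_num, by norm_num, by norm_num⟩ h ![σ, z, x, η] (by
      intro i
      fin_cases i
      · show ((0 : ℤ) : ℝ) ≤ ((1 : ℕ) : ℝ) * σ ∧ ((1 : ℕ) : ℝ) * σ ≤ ((1 : ℤ) : ℝ)
        simp [hσ0, hσ1]
      · show (Z.lo : ℝ) ≤ ((1024 : ℕ) : ℝ) * z ∧ ((1024 : ℕ) : ℝ) * z ≤ (Z.hi : ℝ)
        push_cast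
        exact ⟨hz0, hz1⟩
      · show (X.lo : ℝ) ≤ ((1024 : ℕ) : ℝ) * x ∧ ((1024 : ℕ) : ℝ) * x ≤ (X.hi : ℝ)
        push_cast
        exact ⟨hx0, hx1⟩
      · show ((-1 : ℤ) : ℝ) ≤ ((1 : ℕ) : ℝ) * η ∧ ((1 : ℕ) : ℝ) * η ≤ ((1 : ℤ) : ℝ)
        simp [hη0, hη1])
  rw [ev_FFe _ _ _ _ _ _ σ z x η t' c (by rw [Lf_eq, ← hL, ht]) (by rw [Lf_eq, hc]), Lf_eq] at hs
  exact hs

/-- all boxes -/
def AllBoxes : Prop := ∀ j < 12, ∀ i < 12, ∃ t : Kron.T,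
  Kron.chkT (FFe (D5.P0 j) (D5.P1 j) (D5.Q0 i) (D5.Q1 i) (D5.R0 j) (D5.R1 j)) t
    (D5.bxx j i) = true

theorem boxStmt_of (h : AllBoxes) (j i : Fin 12) : BoxStmt (zd j) (xd i) := by
  obtain ⟨t, ht⟩ := h j j.2 i i.2
  rw [zd_eq, xd_eq]
  exact box_of_chk _ _ 447 8 8 13 3 t ht

theorem K5Flat_of_all (h : AllBoxes) (hR : ∀ j, RhoStmt (zd j)) (hX : ∀ i, EpsStmt (xd i)) :
    K5Flat := K5Flat_of_boxes (boxStmt_of h) hR hX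

end Vale.Agent.P098
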