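import Vale.Agent.Lib.P098.Cert.Scal5

/-!
# P098: side conditions for the boxes
-/

namespace Vale.Agent.P098

open Kron

/-- `gb - ρ G`, with `t = L + (1 - L) σ` -/
def RhoE (p0 p1 r0 r1 : ℤ) : Ex :=
  .letE (.letE (LE p0 p1) (.add (.v 0) (.mul (.sub (.c 1) (.v 0)) .x0))) <|
  .letE (.mul (.q 1 500) (cubE z5Gp (.v 0) .x1)) <|
  .sub (.sub (.q 2601 10000) (.add (.mul (.q (-49) 50) (.v 0))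
    (.mul .x1 (.mul (.q 1 500) (cubzE z5Gp (.v 1) .x1))))) (.mul (LE r0 r1) (.v 0))

theorem ev_RhoE (p0 p1 r0 r1 : ℤ) (σ z w1 w2 t : ℝ) (c : ℝ)
    (ht : t = Lf p0 p1 z + (1 - Lf p0 p1 z) * σ) :
    ev ![σ, z, w1, w2] (RhoE p0 p1 r0 r1) [] = K5.gb (51 / 100) (1 - t) z c -
      Lf r0 r1 z * K5.G.f (1 - t) z c := by
  rw [K5_gb, K5_G]
  simp only [RhoE, LE, ev, List.getD_cons_zero, List.getD_cons_succ, ev_cubE, ev_cubzE, z5Gp_eq]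
  have e1 : ((1 : ℤ) / ((1000 : ℕ) : ℝ) : ℝ) * ((r0 : ℝ) + (r1 : ℝ) * ![σ, z, w1, w2] 1) =
      Lf r0 r1 z := by
    simp [Lf]
  have e2 : ((1 : ℤ) / ((1000 : ℕ) : ℝ) : ℝ) * ((p0 : ℝ) + (p1 : ℝ) * ![σ, z, w1, w2] 1) =
      Lf p0 p1 z := by
    simp [Lf]
  have e3 : Lf p0 p1 z + (((1 : ℤ) : ℝ) - Lf p0 p1 z) * ![σ, z, w1, w2] 0 = t := by
    rw [ht]
    simp
  rw [e1, e2, e3]
  have e4 : ![σ, z, w1, w2] 1 = z := rfl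
  rw [e4]
  push_cast
  ring

theorem rho_of_chk (Z : ZD) (K m0 m1 m2 m3 : ℕ) (t : T)
    (hL : ∀ z : ℝ, ((Z.p0 : ℝ) + Z.p1 * z) / 1000 ≤ 3 / 5 * z ^ 2)
    (h : chkT (RhoE Z.p0 Z.p1 Z.r0 Z.r1) t ⟨⟨0, 1, 1⟩, ⟨Z.lo, Z.hi, 1024⟩,
      ⟨0, 1, 1⟩, ⟨0, 1, 1⟩, K, m0, m1, m2, m3⟩ = true) : RhoStmt Z := by
  intro s z c hs hz hd hz0 hz1
  have hLz := hL z
  set L := ((Z.p0 : ℝ) + Z.p1 * z) / 1000 with hLd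
  have hL1 : 0 < 1 - L := by linarith
  have hσ0 : 0 ≤ (1 - s - L) / (1 - L) := div_nonneg (by linarith) hL1.le
  have hσ1 : (1 - s - L) / (1 - L) ≤ 1 := (div_le_one hL1).2 (by linarith)
  have hs' := chkT_sound _ t _
    ⟨by norm_num, by norm_num, by norm_num, by norm_num⟩ h ![(1 - s - L) / (1 - L), z, 0, 0] (by
      intro i
      fin_cases i
      · show ((0 : ℤ) : ℝ) ≤ ((1 : ℕ) : ℝ) * ((1 - s - L) / (1 - L)) ∧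
          ((1 : ℕ) : ℝ) * ((1 - s - L) / (1 - L)) ≤ ((1 : ℤ) : ℝ)
        simp [hσ0, hσ1]
      · show (Z.lo : ℝ) ≤ ((1024 : ℕ) : ℝ) * z ∧ ((1024 : ℕ) : ℝ) * z ≤ (Z.hi : ℝ)
        push_cast
        exact ⟨hz0, hz1⟩
      · show ((0 : ℤ) : ℝ) ≤ ((1 : ℕ) : ℝ) * 0 ∧ ((1 : ℕ) : ℝ) * 0 ≤ ((1 : ℤ) : ℝ)
        simp
      · show ((0 : ℤ) : ℝ) ≤ ((1 : ℕ) : ℝ) * 0 ∧ ((1 : ℕ) : ℝ) * 0 ≤ ((1 : ℤ) : ℝ)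
        simp)
  rw [ev_RhoE _ _ _ _ _ z 0 0 (1 - s) c (by rw [Lf_eq, ← hLd]; field_simp; ring), Lf_eq,
    show 1 - (1 - s) = s by ring] at hs'
  linarith

/-- `6 l² - (1 - 4x²/3)³` -/
def EpsE (q0 q1 : ℤ) : Ex :=
  .letE (.mul (.q 1 1000) (.add (.c q0) (.mul (.c q1) .x2))) <|
  .letE (.sub (.c 1) (.mul (.q 4 3) (.mul .x2 .x2))) <|
  .sub (.mul (.c 6) (.mul (.v 1) (.v 1))) (.mul (.v 0) (.mul (.v 0) (.v 0)))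

theorem ev_EpsE (q0 q1 : ℤ) (w0 w1 x w3 : ℝ) :
    ev ![w0, w1, x, w3] (EpsE q0 q1) [] = 6 * (((q0 : ℝ) + q1 * x) / 1000) ^ 2 -
      (1 - 4 / 3 * x ^ 2) ^ 3 := by
  simp only [EpsE, ev, List.getD_cons_zero, List.getD_cons_succ]
  have e4 : ![w0, w1, x, w3] 2 = x := rfl
  rw [e4]
  push_cast
  ring

theorem eps_of_chk (X : XD) (K m0 m1 m2 m3 : ℕ) (t : T)
    (hp : ∀ x : ℝ, (X.lo : ℝ) ≤ 1024 * x → 1024 * x ≤ (X.hi : ℝ) →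
      0 < ((X.q0 : ℝ) + X.q1 * x) / 1000)
    (h : chkT (EpsE X.q0 X.q1) t ⟨⟨0, 1, 1⟩, ⟨0, 1, 1⟩,
      ⟨X.lo, X.hi, 1024⟩, ⟨0, 1, 1⟩, K, m0, m1, m2, m3⟩ = true) : EpsStmt X := by
  intro x e _ he hx0 hx1
  have hs' := chkT_sound _ t _
    ⟨by norm_num, by norm_num, by norm_num, by norm_num⟩ h ![0, 0, x, 0] (by
      intro i
      fin_cases i
      · show ((0 : ℤ) : ℝ) ≤ ((1 : ℕ) : ℝ) * 0 ∧ ((1 : ℕ) : ℝ) * 0 ≤ ((1 : ℤ) : ℝ)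
        simp
      · show ((0 : ℤ) : ℝ) ≤ ((1 : ℕ) : ℝ) * 0 ∧ ((1 : ℕ) : ℝ) * 0 ≤ ((1 : ℤ) : ℝ)
        simp
      · show (X.lo : ℝ) ≤ ((1024 : ℕ) : ℝ) * x ∧ ((1024 : ℕ) : ℝ) * x ≤ (X.hi : ℝ)
        push_cast
        exact ⟨hx0, hx1⟩
      · show ((0 : ℤ) : ℝ) ≤ ((1 : ℕ) : ℝ) * 0 ∧ ((1 : ℕ) : ℝ) * 0 ≤ ((1 : ℤ) : ℝ)
        simp)
  rw [ev_EpsE] at hs'
  have hl := hp x hx0 hx1
  refine ⟨?_, hl⟩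
  apply abs_le_of_sq_le_sq _ hl.le
  linarith

theorem rho_chk0 : chkT (RhoE (-1) 30 1396 (-1434)) (.s 0 (.s 0 .leaf .leaf) .leaf)
    ⟨⟨0, 1, 1⟩, ⟨0, 52, 1024⟩, ⟨0, 1, 1⟩, ⟨0, 1, 1⟩, 200, 4, 5, 1, 1⟩ = true := by
  decide +kernel

theorem rho_chk1 : chkT (RhoE (-5) 106 1444 (-2373)) (.s 0 .leaf .leaf)
    ⟨⟨0, 1, 1⟩, ⟨52, 129, 1024⟩, ⟨0, 1, 1⟩, ⟨0, 1, 1⟩, 200, 4, 5, 1, 1⟩ = true := by
  decide +kernel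

theorem rho_chk2 : chkT (RhoE (-18) 203 1595 (-3567)) .leaf
    ⟨⟨0, 1, 1⟩, ⟨129, 218, 1024⟩, ⟨0, 1, 1⟩, ⟨0, 1, 1⟩, 200, 4, 5, 1, 1⟩ = true := by
  decide +kernel

theorem rho_chk3 : chkT (RhoE (-41) 313 1763 (-4359)) .leaf
    ⟨⟨0, 1, 1⟩, ⟨218, 317, 1024⟩, ⟨0, 1, 1⟩, ⟨0, 1, 1⟩, 200, 4, 5, 1, 1⟩ = true := by
  decide +kernel

theorem rho_chk4 : chkT (RhoE (-79) 434 1780 (-4425)) (.s 0 .leaf (.s 0 .leaf (.s 0 .leaf (.s 0 .leaf .leaf))))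
    ⟨⟨0, 1, 1⟩, ⟨317, 424, 1024⟩, ⟨0, 1, 1⟩, ⟨0, 1, 1⟩, 200, 4, 5, 1, 1⟩ = true := by
  decide +kernel

theorem rho_chk5 : chkT (RhoE (-133) 563 1537 (-3856)) (.s 0 .leaf (.s 0 .leaf (.s 1 .leaf .leaf)))
    ⟨⟨0, 1, 1⟩, ⟨424, 537, 1024⟩, ⟨0, 1, 1⟩, ⟨0, 1, 1⟩, 200, 4, 5, 1, 1⟩ = true := by
  decide +kernel

theorem rho_chk6 : chkT (RhoE (-204) 699 1098 (-3021)) (.s 0 .leaf (.s 0 (.s 1 .leaf .leaf) (.s 1 .leaf .leaf)))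
    ⟨⟨0, 1, 1⟩, ⟨537, 656, 1024⟩, ⟨0, 1, 1⟩, ⟨0, 1, 1⟩, 200, 4, 5, 1, 1⟩ = true := by
  decide +kernel

theorem rho_chk7 : chkT (RhoE (-295) 841 611 (-2257)) (.s 0 (.s 1 .leaf .leaf) (.s 1 .leaf .leaf))
    ⟨⟨0, 1, 1⟩, ⟨656, 780, 1024⟩, ⟨0, 1, 1⟩, ⟨0, 1, 1⟩, 200, 4, 5, 1, 1⟩ = true := by
  decide +kernel

theorem rho_chk8 : chkT (RhoE (-409) 990 167 (-1674)) (.s 0 (.s 1 .leaf .leaf) .leaf)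
    ⟨⟨0, 1, 1⟩, ⟨780, 910, 1024⟩, ⟨0, 1, 1⟩, ⟨0, 1, 1⟩, 200, 4, 5, 1, 1⟩ = true := by
  decide +kernel

theorem rho_chk9 : chkT (RhoE (-546) 1144 (-373) (-1065)) .leaf
    ⟨⟨0, 1, 1⟩, ⟨910, 1043, 1024⟩, ⟨0, 1, 1⟩, ⟨0, 1, 1⟩, 200, 4, 5, 1, 1⟩ = true := by
  decide +kernel

theorem rho_chk10 : chkT (RhoE (-708) 1303 (-833) (-611)) .leaf
    ⟨⟨0, 1, 1⟩, ⟨1043, 1181, 1024⟩, ⟨0, 1, 1⟩, ⟨0, 1, 1⟩, 200, 4, 5, 1, 1⟩ = true := by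
  decide +kernel

theorem rho_chk11 : chkT (RhoE (-897) 1467 (-1205) (-287)) .leaf
    ⟨⟨0, 1, 1⟩, ⟨1181, 1322, 1024⟩, ⟨0, 1, 1⟩, ⟨0, 1, 1⟩, 200, 4, 5, 1, 1⟩ = true := by
  decide +kernel

theorem eps_chk0 : chkT (EpsE 415 479) .leaf
    ⟨⟨0, 1, 1⟩, ⟨0, 1, 1⟩, ⟨-887, -739, 1024⟩, ⟨0, 1, 1⟩, 200, 1, 1, 7, 1⟩ = true := by
  decide +kernel

theorem eps_chk1 : chkT (EpsE 570 694) .leaf
    ⟨⟨0, 1, 1⟩, ⟨0, 1, 1⟩, ⟨-739, -591, 1024⟩, ⟨0, 1, 1⟩, 200, 1, 1, 7, 1⟩ = true := by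
  decide +kernel

theorem eps_chk2 : chkT (EpsE 565 685) (.s 2 (.s 2 .leaf (.s 2 .leaf .leaf)) .leaf)
    ⟨⟨0, 1, 1⟩, ⟨0, 1, 1⟩, ⟨-591, -444, 1024⟩, ⟨0, 1, 1⟩, 200, 1, 1, 7, 1⟩ = true := by
  decide +kernel

theorem eps_chk3 : chkT (EpsE 498 530) (.s 2 .leaf (.s 2 .leaf .leaf))
    ⟨⟨0, 1, 1⟩, ⟨0, 1, 1⟩, ⟨-444, -296, 1024⟩, ⟨0, 1, 1⟩, 200, 1, 1, 7, 1⟩ = true := by
  decide +kernel

theorem eps_chk4 : chkT (EpsE 444 339) (.s 2 .leaf (.s 2 .leaf .leaf))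
    ⟨⟨0, 1, 1⟩, ⟨0, 1, 1⟩, ⟨-296, -148, 1024⟩, ⟨0, 1, 1⟩, 200, 1, 1, 7, 1⟩ = true := by
  decide +kernel

theorem eps_chk5 : chkT (EpsE 413 124) (.s 2 (.s 2 .leaf .leaf) .leaf)
    ⟨⟨0, 1, 1⟩, ⟨0, 1, 1⟩, ⟨-148, 0, 1024⟩, ⟨0, 1, 1⟩, 200, 1, 1, 7, 1⟩ = true := by
  decide +kernel

theorem eps_chk6 : chkT (EpsE 413 (-124)) (.s 2 .leaf (.s 2 .leaf .leaf))
    ⟨⟨0, 1, 1⟩, ⟨0, 1, 1⟩, ⟨0, 148, 1024⟩, ⟨0, 1, 1⟩, 200, 1, 1, 7, 1⟩ = true := by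
  decide +kernel

theorem eps_chk7 : chkT (EpsE 444 (-339)) (.s 2 (.s 2 .leaf .leaf) .leaf)
    ⟨⟨0, 1, 1⟩, ⟨0, 1, 1⟩, ⟨148, 296, 1024⟩, ⟨0, 1, 1⟩, 200, 1, 1, 7, 1⟩ = true := by
  decide +kernel

theorem eps_chk8 : chkT (EpsE 498 (-530)) (.s 2 (.s 2 .leaf .leaf) .leaf)
    ⟨⟨0, 1, 1⟩, ⟨0, 1, 1⟩, ⟨296, 444, 1024⟩, ⟨0, 1, 1⟩, 200, 1, 1, 7, 1⟩ = true := by
  decide +kernel

theorem eps_chk9 : chkT (EpsE 565 (-685)) (.s 2 .leaf (.s 2 (.s 2 .leaf .leaf) .leaf))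
    ⟨⟨0, 1, 1⟩, ⟨0, 1, 1⟩, ⟨444, 591, 1024⟩, ⟨0, 1, 1⟩, 200, 1, 1, 7, 1⟩ = true := by
  decide +kernel

theorem eps_chk10 : chkT (EpsE 570 (-694)) .leaf
    ⟨⟨0, 1, 1⟩, ⟨0, 1, 1⟩, ⟨591, 739, 1024⟩, ⟨0, 1, 1⟩, 200, 1, 1, 7, 1⟩ = true := by
  decide +kernel

theorem eps_chk11 : chkT (EpsE 415 (-479)) .leaf
    ⟨⟨0, 1, 1⟩, ⟨0, 1, 1⟩, ⟨739, 887, 1024⟩, ⟨0, 1, 1⟩, 200, 1, 1, 7, 1⟩ = true := by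
  decide +kernel

theorem rho_all (j : Fin 12) : RhoStmt (zd j) := by
  have hL := zd_tangent j
  fin_cases j
  · exact rho_of_chk _ 200 4 5 1 1 _ hL rho_chk0
  · exact rho_of_chk _ 200 4 5 1 1 _ hL rho_chk1
  · exact rho_of_chk _ 200 4 5 1 1 _ hL rho_chk2
  · exact rho_of_chk _ 200 4 5 1 1 _ hL rho_chk3
  · exact rho_of_chk _ 200 4 5 1 1 _ hL rho_chk4
  · exact rho_of_chk _ 200 4 5 1 1 _ hL rho_chk5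
  · exact rho_of_chk _ 200 4 5 1 1 _ hL rho_chk6
  · exact rho_of_chk _ 200 4 5 1 1 _ hL rho_chk7
  · exact rho_of_chk _ 200 4 5 1 1 _ hL rho_chk8
  · exact rho_of_chk _ 200 4 5 1 1 _ hL rho_chk9
  · exact rho_of_chk _ 200 4 5 1 1 _ hL rho_chk10
  · exact rho_of_chk _ 200 4 5 1 1 _ hL rho_chk11

theorem eps_all (i : Fin 12) : EpsStmt (xd i) := by
  fin_cases i
  · refine eps_of_chk _ 200 1 1 7 1 _ (fun x h1 h2 => ?_) eps_chk0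
    change ((-887 : ℤ) : ℝ) ≤ 1024 * x at h1
    change 1024 * x ≤ ((-739 : ℤ) : ℝ) at h2
    change 0 < (((415 : ℤ) : ℝ) + ((479 : ℤ) : ℝ) * x) / 1000
    push_cast at h1 h2 ⊢
    linarith
  · refine eps_of_chk _ 200 1 1 7 1 _ (fun x h1 h2 => ?_) eps_chk1
    change ((-739 : ℤ) : ℝ) ≤ 1024 * x at h1
    change 1024 * x ≤ ((-591 : ℤ) : ℝ) at h2
    change 0 < (((570 : ℤ) : ℝ) + ((694 : ℤ) : ℝ) * x) / 1000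
    push_cast at h1 h2 ⊢
    linarith
  · refine eps_of_chk _ 200 1 1 7 1 _ (fun x h1 h2 => ?_) eps_chk2
    change ((-591 : ℤ) : ℝ) ≤ 1024 * x at h1
    change 1024 * x ≤ ((-444 : ℤ) : ℝ) at h2
    change 0 < (((565 : ℤ) : ℝ) + ((685 : ℤ) : ℝ) * x) / 1000
    push_cast at h1 h2 ⊢
    linarith
  · refine eps_of_chk _ 200 1 1 7 1 _ (fun x h1 h2 => ?_) eps_chk3
    change ((-444 : ℤ) : ℝ) ≤ 1024 * x at h1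
    change 1024 * x ≤ ((-296 : ℤ) : ℝ) at h2
    change 0 < (((498 : ℤ) : ℝ) + ((530 : ℤ) : ℝ) * x) / 1000
    push_cast at h1 h2 ⊢
    linarith
  · refine eps_of_chk _ 200 1 1 7 1 _ (fun x h1 h2 => ?_) eps_chk4
    change ((-296 : ℤ) : ℝ) ≤ 1024 * x at h1
    change 1024 * x ≤ ((-148 : ℤ) : ℝ) at h2
    change 0 < (((444 : ℤ) : ℝ) + ((339 : ℤ) : ℝ) * x) / 1000
    push_cast at h1 h2 ⊢
    linarith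
  · refine eps_of_chk _ 200 1 1 7 1 _ (fun x h1 h2 => ?_) eps_chk5
    change ((-148 : ℤ) : ℝ) ≤ 1024 * x at h1
    change 1024 * x ≤ ((0 : ℤ) : ℝ) at h2
    change 0 < (((413 : ℤ) : ℝ) + ((124 : ℤ) : ℝ) * x) / 1000
    push_cast at h1 h2 ⊢
    linarith
  · refine eps_of_chk _ 200 1 1 7 1 _ (fun x h1 h2 => ?_) eps_chk6
    change ((0 : ℤ) : ℝ) ≤ 1024 * x at h1
    change 1024 * x ≤ ((148 : ℤ) : ℝ) at h2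
    change 0 < (((413 : ℤ) : ℝ) + ((-124 : ℤ) : ℝ) * x) / 1000
    push_cast at h1 h2 ⊢
    linarith
  · refine eps_of_chk _ 200 1 1 7 1 _ (fun x h1 h2 => ?_) eps_chk7
    change ((148 : ℤ) : ℝ) ≤ 1024 * x at h1
    change 1024 * x ≤ ((296 : ℤ) : ℝ) at h2
    change 0 < (((444 : ℤ) : ℝ) + ((-339 : ℤ) : ℝ) * x) / 1000
    push_cast at h1 h2 ⊢
    linarith
  · refine eps_of_chk _ 200 1 1 7 1 _ (fun x h1 h2 => ?_) eps_chk8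
    change ((296 : ℤ) : ℝ) ≤ 1024 * x at h1
    change 1024 * x ≤ ((444 : ℤ) : ℝ) at h2
    change 0 < (((498 : ℤ) : ℝ) + ((-530 : ℤ) : ℝ) * x) / 1000
    push_cast at h1 h2 ⊢
    linarith
  · refine eps_of_chk _ 200 1 1 7 1 _ (fun x h1 h2 => ?_) eps_chk9
    change ((444 : ℤ) : ℝ) ≤ 1024 * x at h1
    change 1024 * x ≤ ((591 : ℤ) : ℝ) at h2
    change 0 < (((565 : ℤ) : ℝ) + ((-685 : ℤ) : ℝ) * x) / 1000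
    push_cast at h1 h2 ⊢
    linarith
  · refine eps_of_chk _ 200 1 1 7 1 _ (fun x h1 h2 => ?_) eps_chk10
    change ((591 : ℤ) : ℝ) ≤ 1024 * x at h1
    change 1024 * x ≤ ((739 : ℤ) : ℝ) at h2
    change 0 < (((570 : ℤ) : ℝ) + ((-694 : ℤ) : ℝ) * x) / 1000
    push_cast at h1 h2 ⊢
    linarith
  · refine eps_of_chk _ 200 1 1 7 1 _ (fun x h1 h2 => ?_) eps_chk11
    change ((739 : ℤ) : ℝ) ≤ 1024 * x at h1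
    change 1024 * x ≤ ((887 : ℤ) : ℝ) at h2
    change 0 < (((415 : ℤ) : ℝ) + ((-479 : ℤ) : ℝ) * x) / 1000
    push_cast at h1 h2 ⊢
    linarith

theorem K5Flat_of_all' (h : AllBoxes) : K5Flat := K5Flat_of_all h rho_all eps_all

end Vale.Agent.P098
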